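import Mathlib

/-! The rational group algebra of affine patterns: positivity, cost and averaging. -/

namespace Vale.Agent.P058

/-- Rational group algebra. -/
abbrev QA (M : Type) := AddMonoidAlgebra ℚ M

section General

variable {M N : Type} [AddCommGroup M] [AddCommGroup N]

/-- Basis element. -/
noncomputable def sg (m : M) : QA M := AddMonoidAlgebra.single m 1

theorem sg_add (a b : M) : sg (a + b) = sg a * sg b := by
  simp [sg, AddMonoidAlgebra.single_mul_single]

theorem sg_zero : sg (0 : M) = 1 := rfl

theorem sg_nsmul (n : ℕ) (a : M) : sg (n • a) = sg a ^ n := by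
  induction n with
  | zero => simp [sg_zero]
  | succ n ih => rw [succ_nsmul, sg_add, ih, pow_succ]

/-- Push forward along an additive map. -/
noncomputable def mp (f : M →+ N) : QA M →ₐ[ℚ] QA N := AddMonoidAlgebra.mapDomainAlgHom ℚ ℚ f

theorem mp_sg (f : M →+ N) (m : M) : mp f (sg m) = sg (f m) := by
  simp [mp, sg]

/-- Linear extension of a function on the basis. -/
noncomputable def lin {V : Type} [AddCommGroup V] [Module ℚ V] (F : M → V) : QA M →ₗ[ℚ] V :=
  (Finsupp.linearCombination ℚ F).comp (AddMonoidAlgebra.coeffLinearEquiv ℚ).toLinearMap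

omit [AddCommGroup M] in
theorem lin_sg {V : Type} [AddCommGroup V] [Module ℚ V] (F : M → V) (m : M) :
    lin F (sg m) = F m := by
  simp [lin, sg]

theorem QA_ind {P : QA M → Prop} (x : QA M) (h0 : P 0) (hadd : ∀ x y, P x → P y → P (x + y))
    (hs : ∀ (q : ℚ) (m : M), P (q • sg m)) : P x := by
  induction x using AddMonoidAlgebra.induction_linear with
  | zero => exact h0
  | add x y hx hy => exact hadd x y hx hy
  | single m q =>
    have := hs q m
    simpa [sg] using this

theorem QA_ext {V : Type} [AddCommGroup V] [Module ℚ V] {f g : QA M →ₗ[ℚ] V}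
    (h : ∀ m, f (sg m) = g (sg m)) (x : QA M) : f x = g x := by
  induction x using QA_ind with
  | h0 => simp
  | hadd x y hx hy => simp [hx, hy]
  | hs q m => simp [h]

theorem mp_surj {f : M →+ N} (hf : Function.Surjective f) : Function.Surjective (mp f) := by
  intro y
  induction y using QA_ind with
  | h0 => exact ⟨0, map_zero _⟩
  | hadd x y hx hy =>
    obtain ⟨a, rfl⟩ := hx
    obtain ⟨b, rfl⟩ := hy
    exact ⟨a + b, map_add _ _ _⟩
  | hs q m =>
    obtain ⟨a, rfl⟩ := hf m
    exact ⟨q • sg a, by rw [map_smul, mp_sg]⟩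

/-- Nonnegative combinations. -/
inductive Pos : QA M → Prop
  | zero : Pos 0
  | single (q : ℚ) (hq : 0 ≤ q) (m : M) : Pos (q • sg m)
  | add {x y : QA M} : Pos x → Pos y → Pos (x + y)

theorem Pos.of_sg (m : M) : Pos (sg m) := by simpa using Pos.single 1 zero_le_one m

theorem Pos.one : Pos (1 : QA M) := Pos.of_sg 0

theorem Pos.smul {x : QA M} (hx : Pos x) {q : ℚ} (hq : 0 ≤ q) : Pos (q • x) := by
  induction hx with
  | zero => simpa using Pos.zero
  | single r hr m => rw [smul_smul]; exact Pos.single _ (mul_nonneg hq hr) m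
  | add _ _ ih1 ih2 => rw [smul_add]; exact ih1.add ih2

theorem Pos.mul {x y : QA M} (hx : Pos x) (hy : Pos y) : Pos (x * y) := by
  induction hx with
  | zero => simpa using Pos.zero
  | single r hr m =>
    rw [smul_mul_assoc]
    refine Pos.smul ?_ hr
    induction hy with
    | zero => simpa using Pos.zero
    | single r hr m' => rw [mul_smul_comm, ← sg_add]; exact Pos.single _ hr _
    | add _ _ ih1 ih2 => rw [mul_add]; exact ih1.add ih2
  | add _ _ ih1 ih2 => rw [add_mul]; exact ih1.add ih2

theorem Pos.pow {x : QA M} (hx : Pos x) (n : ℕ) : Pos (x ^ n) := by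
  induction n with
  | zero => simpa using Pos.one
  | succ n ih => rw [pow_succ]; exact ih.mul hx

theorem Pos.sum {ι : Type} (s : Finset ι) {f : ι → QA M} (hf : ∀ i ∈ s, Pos (f i)) :
    Pos (∑ i ∈ s, f i) :=
  Finset.sum_induction f Pos (fun _ _ => Pos.add) Pos.zero hf

theorem Pos.map {x : QA M} (hx : Pos x) (f : M →+ N) : Pos (mp f x) := by
  induction hx with
  | zero => simpa using Pos.zero
  | single r hr m => rw [map_smul, mp_sg]; exact Pos.single _ hr _
  | add _ _ ih1 ih2 => rw [map_add]; exact ih1.add ih2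

theorem exists_pos_sub (x : QA M) : ∃ p q, Pos p ∧ Pos q ∧ x = p - q := by
  induction x using QA_ind with
  | h0 => exact ⟨0, 0, Pos.zero, Pos.zero, by simp⟩
  | hadd x y hx hy =>
    obtain ⟨p, q, hp, hq, rfl⟩ := hx
    obtain ⟨p', q', hp', hq', rfl⟩ := hy
    exact ⟨p + p', q + q', hp.add hp', hq.add hq', by ring⟩
  | hs q m =>
    rcases le_total 0 q with h | h
    · exact ⟨_, 0, Pos.single q h m, Pos.zero, by simp⟩
    · exact ⟨0, _, Pos.zero, Pos.single (-q) (by linarith) m, by simp⟩

/-- A multiset as an element of the group algebra. -/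
noncomputable def ofM (s : Multiset M) : QA M := (s.map sg).sum

theorem ofM_add (s t : Multiset M) : ofM (s + t) = ofM s + ofM t := by simp [ofM]

theorem ofM_nsmul (n : ℕ) (s : Multiset M) : ofM (n • s) = (n : ℚ) • ofM s := by
  induction n with
  | zero => simp [ofM]
  | succ n ih => rw [succ_nsmul, ofM_add, ih]; push_cast; rw [add_smul, one_smul]

theorem mp_ofM (f : M →+ N) (s : Multiset M) : mp f (ofM s) = ofM (s.map f) := by
  simp [ofM, map_multiset_sum, mp_sg]

omit [AddCommGroup M] in
theorem lin_ofM {V : Type} [AddCommGroup V] [Module ℚ V] (F : M → V) (s : Multiset M) :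
    lin F (ofM s) = (s.map F).sum := by
  simp [ofM, map_multiset_sum, lin_sg]

omit [AddCommGroup M] in
theorem ofM_inj {s t : Multiset M} (h : ofM s = ofM t) : s = t := by
  classical
  have key : ∀ (s : Multiset M) (a : M),
      lin (fun m => if a = m then (1 : ℚ) else 0) (ofM s) = s.count a := by
    intro s a
    rw [lin_ofM]
    induction s using Multiset.induction_on with
    | empty => simp
    | cons b s ih =>
      rw [Multiset.map_cons, Multiset.sum_cons, ih, Multiset.count_cons]
      push_cast
      ring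
  ext a
  have := key s a
  rw [h, key] at this
  exact_mod_cast this.symm

theorem Pos.exists_multiset {x : QA M} (hx : Pos x) :
    ∃ (n : ℕ) (s : Multiset M), 0 < n ∧ (n : ℚ) • x = ofM s := by
  induction hx with
  | zero => exact ⟨1, 0, one_pos, by simp [ofM]⟩
  | single r hr m =>
    refine ⟨r.den, r.num.toNat • {m}, r.den_pos, ?_⟩
    rw [ofM_nsmul, smul_smul]
    have h1 : ((r.num.toNat : ℕ) : ℚ) = r.num := by
      have : ((r.num.toNat : ℕ) : ℤ) = r.num := Int.toNat_of_nonneg (Rat.num_nonneg.2 hr)
      exact_mod_cast this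
    rw [h1, Rat.den_mul_eq_num]
    simp [ofM]
  | add _ _ ih1 ih2 =>
    obtain ⟨n, s, hn, hs⟩ := ih1
    obtain ⟨n', s', hn', hs'⟩ := ih2
    refine ⟨n * n', n' • s + n • s', Nat.mul_pos hn hn', ?_⟩
    rw [ofM_add, ofM_nsmul, ofM_nsmul, ← hs, ← hs', smul_smul, smul_smul, smul_add]
    push_cast
    rw [mul_comm (n' : ℚ)]

/-- The augmentation ideal. -/
noncomputable def aug (M : Type) [AddCommGroup M] : Ideal (QA M) :=
  Ideal.span (Set.range fun t : M => sg t - 1)

theorem sg_sub_one_mem (t : M) : sg t - 1 ∈ aug M := Ideal.subset_span ⟨t, rfl⟩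

theorem smul_mem_ideal (I : Ideal (QA M)) (q : ℚ) {x : QA M} (hx : x ∈ I) : q • x ∈ I := by
  rw [Algebra.smul_def]
  exact I.mul_mem_left _ hx

theorem mp_sub_mem (f : M →+ M) (x : QA M) : mp f x - x ∈ aug M := by
  induction x using QA_ind with
  | h0 => simp
  | hadd x y hx hy =>
    have := add_mem hx hy
    rw [map_add]
    convert this using 1
    ring
  | hs q m =>
    rw [map_smul, ← smul_sub, mp_sg]
    apply smul_mem_ideal
    have := sub_mem (sg_sub_one_mem (f m)) (sg_sub_one_mem m)
    convert this using 1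
    ring

theorem pow_sub_mem (t : M) (m : ℕ) : sg t ^ m - 1 - (m : QA M) * (sg t - 1) ∈ aug M ^ 2 := by
  induction m with
  | zero => simp
  | succ m ih =>
    have h1 : (sg t ^ m - 1) * (sg t - 1) ∈ aug M ^ 2 := by
      rw [pow_two, ← sg_nsmul]
      exact Ideal.mul_mem_mul (sg_sub_one_mem _) (sg_sub_one_mem _)
    have := add_mem ih h1
    convert this using 1
    push_cast
    ring

theorem dil_one (f : M →+ M) (m : ℕ) (hf : ∀ t, f t = m • t) {x : QA M} (hx : x ∈ aug M) :
    mp f x - (m : QA M) * x ∈ aug M ^ 2 := by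
  induction hx using Submodule.span_induction with
  | mem x hx =>
    obtain ⟨t, rfl⟩ := hx
    simp only [map_sub, map_one, mp_sg, hf, sg_nsmul]
    exact pow_sub_mem t m
  | zero => simp
  | add x y _ _ hx hy =>
    have := add_mem hx hy
    rw [map_add]
    convert this using 1
    ring
  | smul r x hx ih =>
    have h1 : (mp f r - r) * x ∈ aug M ^ 2 := by
      rw [pow_two]
      exact Ideal.mul_mem_mul (mp_sub_mem f r) hx
    have := add_mem (Ideal.mul_mem_left _ (mp f r) ih) (Ideal.mul_mem_left _ (m : QA M) h1)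
    rw [smul_eq_mul, map_mul]
    convert this using 1
    ring

theorem dil_pow (f : M →+ M) (m : ℕ) (hf : ∀ t, f t = m • t) (k : ℕ) :
    ∀ x ∈ aug M ^ k, mp f x - (m : QA M) ^ k * x ∈ aug M ^ (k + 1) := by
  induction k with
  | zero =>
    intro x _
    simpa using mp_sub_mem f x
  | succ k ih =>
    intro x hx
    rw [pow_succ] at hx
    refine Submodule.mul_induction_on hx (fun a ha b hb => ?_) (fun a b ha hb => ?_)
    · have h1 := ih a ha
      have h2 := dil_one f m hf hb
      have h3 : mp f b ∈ aug M := by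
        have := add_mem (mp_sub_mem f b) hb
        simpa using this
      have h4 : (mp f a - (m : QA M) ^ k * a) * mp f b ∈ aug M ^ (k + 1 + 1) := by
        rw [pow_succ]
        exact Ideal.mul_mem_mul h1 h3
      have h5 : a * (mp f b - (m : QA M) * b) ∈ aug M ^ (k + 1 + 1) := by
        rw [add_assoc, pow_add]
        exact Ideal.mul_mem_mul ha h2
      have := add_mem h4 (Ideal.mul_mem_left _ ((m : QA M) ^ k) h5)
      rw [map_mul]
      convert this using 1
      ring
    · have := add_mem ha hb
      rw [map_add]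
      convert this using 1
      ring

end General

end Vale.Agent.P058
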