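import Vale.Agent.P058.Good

/-! From the tensor criterion to two multisets of patterns with the same letters. -/

namespace Vale.Agent.P058

open scoped TensorProduct

section General

variable {M V : Type} [AddCommGroup M] [Module ℚ M] [AddCommGroup V] [Module ℚ V]

/-- Second difference. -/
noncomputable def BB (u v : M) : QA M := (sg u - 1) * (sg v - 1)

omit [Module ℚ M] in
theorem BB_comm (u v : M) : BB u v = BB v u := mul_comm _ _

omit [Module ℚ M] in
theorem BB_add (u u' v : M) :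
    BB (u + u') v = BB u v + BB u' v + (sg u - 1) * (sg u' - 1) * (sg v - 1) := by
  simp only [BB, sg_add]
  ring

/-- The bilinear map given by second differences. -/
noncomputable def bil (Φ : QA M →ₗ[ℚ] V)
    (h : ∀ u u' v : M, Φ ((sg u - 1) * (sg u' - 1) * (sg v - 1)) = 0) : M →ₗ[ℚ] M →ₗ[ℚ] V :=
  have hadd : ∀ u u' v : M, Φ (BB (u + u') v) = Φ (BB u v) + Φ (BB u' v) := fun u u' v => by
    rw [BB_add, map_add, map_add, h, add_zero]
  have hsmul : ∀ (c : ℚ) (u v : M), Φ (BB (c • u) v) = c • Φ (BB u v) := fun c u v =>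
    map_rat_smul (AddMonoidHom.mk' (fun u => Φ (BB u v)) fun u u' => hadd u u' v) c u
  LinearMap.mk₂ ℚ (fun u v => Φ (BB u v)) hadd hsmul
    (fun u v v' => by rw [BB_comm, hadd, BB_comm v, BB_comm v'])
    (fun c u v => by rw [BB_comm, hsmul, BB_comm v])

theorem bil_apply (Φ : QA M →ₗ[ℚ] V) (h) (u v : M) : bil Φ h u v = Φ (BB u v) := rfl

omit [Module ℚ M] in
theorem cube_mem (u u' v : M) : (sg u - 1) * (sg u' - 1) * (sg v - 1) ∈ aug M ^ 3 := by
  rw [pow_succ, pow_two]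
  exact Ideal.mul_mem_mul (Ideal.mul_mem_mul (sg_sub_one_mem _) (sg_sub_one_mem _))
    (sg_sub_one_mem _)

end General

/-- Quotient map by the cube of the augmentation ideal. -/
noncomputable def q3 : QA ℝ →ₗ[ℚ] QA ℝ ⧸ aug ℝ ^ 3 := (Ideal.Quotient.mkₐ ℚ _).toLinearMap

theorem q3_eq_zero {x : QA ℝ} : q3 x = 0 ↔ x ∈ aug ℝ ^ 3 := Ideal.Quotient.eq_zero_iff_mem

/-- The map from the tensor square. -/
noncomputable def lam : ℝ ⊗[ℚ] ℝ →ₗ[ℚ] QA ℝ ⧸ aug ℝ ^ 3 :=
  TensorProduct.lift (bil q3 fun u u' v => q3_eq_zero.2 (cube_mem u u' v))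

theorem lam_tmul (r s : ℝ) : lam (r ⊗ₜ s) = q3 (BB r s) := rfl

variable {d : ℕ} {A : Type} (a : A → Fin d → ℝ)

/-- Target of the invariants. -/
abbrev Tgt (d : ℕ) (A : Type) := (A → QA ℝ ⧸ aug ℝ ^ 3) × ((Fin d → ℝ) → ℝ)

/-- The invariants of an element of the pattern algebra. -/
noncomputable def Phi : QA (Pat d) →ₗ[ℚ] Tgt d A :=
  LinearMap.prod (LinearMap.pi fun i => q3.comp (mp (evp (a i))).toLinearMap) gam

theorem Phi_fst (x : QA (Pat d)) (i : A) : (Phi a x).1 i = q3 (mp (evp (a i)) x) := rfl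

theorem Phi_snd (x : QA (Pat d)) : (Phi a x).2 = gam x := rfl

theorem gam_one : gam (1 : QA (Pat d)) = 0 := by
  funext v
  rw [← sg_zero, gam_sg]
  simp

theorem tau_one : tau (1 : QA (Pat d)) = 0 := by
  rw [← sg_zero, tau_sg]
  simp

theorem gam_BB (u w : Pat d) (v : Fin d → ℝ) :
    gam (BB u w) v = 2 * (∑ k, u.2 k * v k) * ∑ k, w.2 k * v k := by
  have : BB u w = sg (u + w) - sg u - sg w + 1 := by
    simp only [BB, sg_add]
    ring
  rw [this]
  simp only [map_add, map_sub, Pi.add_apply, Pi.sub_apply, gam_sg, gam_one, Prod.snd_add, add_mul,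
    Finset.sum_add_distrib, Pi.zero_apply]
  ring

theorem Phi_cube (u u' v : Pat d) : Phi a ((sg u - 1) * (sg u' - 1) * (sg v - 1)) = 0 := by
  refine Prod.ext (funext fun i => ?_) (funext fun w => ?_)
  · rw [Phi_fst]
    simp only [map_mul, map_sub, map_one, mp_sg]
    exact q3_eq_zero.2 (cube_mem _ _ _)
  · have : (sg u - 1) * (sg u' - 1) * (sg v - 1) = BB (u + u') v - BB u v - BB u' v := by
      rw [BB_add]
      ring
    rw [Phi_snd, this]
    simp only [map_sub, Pi.sub_apply, gam_BB, Prod.snd_add, Pi.add_apply, add_mul,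
      Finset.sum_add_distrib, Prod.snd_zero, Pi.zero_apply]
    ring

/-- The bilinear invariants. -/
noncomputable def bb : Pat d →ₗ[ℚ] Pat d →ₗ[ℚ] Tgt d A := bil (Phi a) (Phi_cube a)

theorem bb_fst (u v : Pat d) (i : A) :
    (bb a u v).1 i = lam (evp (a i) u ⊗ₜ evp (a i) v) := by
  rw [lam_tmul, bb, bil_apply, Phi_fst]
  simp only [BB, map_mul, map_sub, map_one, mp_sg]

theorem bb_snd (u w : Pat d) (v : Fin d → ℝ) :
    (bb a u w).2 v = 2 * (∑ k, u.2 k * v k) * ∑ k, w.2 k * v k := by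
  rw [bb, bil_apply, Phi_snd, gam_BB]

theorem bb_comm (u v : Pat d) : bb a u v = bb a v u := by
  rw [bb, bil_apply, bil_apply, BB_comm]

theorem small_BB (u v : Pat d) : Small (BB u v) (3 * (∑ k, u.2 k ^ 2 + ∑ k, v.2 k ^ 2)) := by
  refine ⟨sg (u + v) + 1, sg u + sg v, (Pos.of_sg _).add Pos.one,
    (Pos.of_sg _).add (Pos.of_sg _), by simp only [BB, sg_add]; ring, ?_⟩
  simp only [map_add, tau_sg, tau_one, Prod.snd_add, Pi.add_apply]
  have : ∑ k, (u.2 k + v.2 k) ^ 2 ≤ ∑ k, (2 * u.2 k ^ 2 + 2 * v.2 k ^ 2) :=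
    Finset.sum_le_sum fun k _ => by nlinarith [sq_nonneg (u.2 k - v.2 k)]
  rw [Finset.sum_add_distrib, ← Finset.mul_sum, ← Finset.mul_sum] at this
  linarith

theorem rep_bb (u v : Pat d) {ε : ℚ} (hε : ε ≠ 0) : ∃ y, Phi a y = bb a u v ∧
    Small y (3 * ((ε : ℝ)⁻¹ ^ 2 * ∑ k, u.2 k ^ 2 + (ε : ℝ) ^ 2 * ∑ k, v.2 k ^ 2)) := by
  refine ⟨BB (ε⁻¹ • u) (ε • v), ?_, ?_⟩
  · change bb a (ε⁻¹ • u) (ε • v) = _
    rw [map_smul, map_smul, LinearMap.smul_apply, smul_smul, mul_inv_cancel₀ hε, one_smul]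
  · have := small_BB (ε⁻¹ • u) (ε • v)
    simp only [Prod.smul_snd, Pi.smul_apply, Rat.smul_def, mul_pow, ← Finset.mul_sum] at this
    push_cast at this
    exact this

/-- Invariants that can be realised at arbitrarily small cost. -/
noncomputable def Cheap : Submodule ℚ (Tgt d A) where
  carrier := {v | ∀ η > 0, ∃ y, Phi a y = v ∧ Small y η}
  zero_mem' := fun η hη => ⟨0, map_zero _, Small.zero.mono hη.le⟩
  add_mem' := by
    intro x y hx hy η hη
    obtain ⟨z, h1, h2⟩ := hx (η / 2) (by positivity)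
    obtain ⟨z', h1', h2'⟩ := hy (η / 2) (by positivity)
    refine ⟨z + z', by rw [map_add, h1, h1'], ?_⟩
    simpa using h2.add h2'
  smul_mem' := by
    intro c x hx η hη
    obtain ⟨η', hη', hc⟩ := exists_scale c η hη
    obtain ⟨z, h1, h2⟩ := hx η' hη'
    exact ⟨c • z, by rw [map_smul, h1], (h2.smul c).mono hc⟩

theorem exists_eps (C η : ℝ) (hC : 0 ≤ C) (hη : 0 < η) :
    ∃ ε : ℚ, 0 < ε ∧ C * (ε : ℝ) ^ 2 ≤ η := by
  obtain ⟨ε, h1, h2⟩ := exists_rat_btwn (show (0 : ℝ) < min 1 (η / (C + 1)) by positivity)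
  refine ⟨ε, by exact_mod_cast h1, ?_⟩
  have h3 : (ε : ℝ) < 1 := h2.trans_le (min_le_left _ _)
  have h4 : (ε : ℝ) < η / (C + 1) := h2.trans_le (min_le_right _ _)
  rw [lt_div_iff₀ (by positivity)] at h4
  have h5 : (ε : ℝ) ^ 2 ≤ ε := by nlinarith
  nlinarith

theorem cheap_const (u v : Pat d) (hu : u.2 = 0) : bb a u v ∈ Cheap a := by
  intro η hη
  obtain ⟨ε, h1, h2⟩ := exists_eps (3 * ∑ k, v.2 k ^ 2) η (by positivity) hη
  obtain ⟨y, hy, hs⟩ := rep_bb a u v h1.ne'
  refine ⟨y, hy, hs.mono ?_⟩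
  simp only [hu, Pi.zero_apply, ne_eq, OfNat.ofNat_ne_zero, not_false_eq_true, zero_pow,
    Finset.sum_const_zero, mul_zero, zero_add]
  linarith

theorem cheap_move (u v : Pat d) (r : ℝ) : bb a (r • u) v - bb a u (r • v) ∈ Cheap a := by
  intro η hη
  obtain ⟨ε, h1, h2⟩ := exists_eps (6 * (∑ k, u.2 k ^ 2 + ∑ k, v.2 k ^ 2)) η (by positivity) hη
  have h1' : (0 : ℝ) < ε := by exact_mod_cast h1
  obtain ⟨s, hs1, hs2⟩ := exists_rat_btwn (show r - (ε : ℝ) ^ 2 < r by nlinarith)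
  have e : bb a (r • u) v - bb a u (r • v) = bb a ((r - s) • u) v - bb a ((r - s) • v) u := by
    rw [bb_comm a ((r - s) • v), sub_smul, sub_smul, Rat.cast_smul_eq_qsmul,
      Rat.cast_smul_eq_qsmul]
    simp only [map_sub, map_smul, LinearMap.sub_apply, LinearMap.smul_apply]
    abel
  obtain ⟨y, hy, hs⟩ := rep_bb a ((r - s) • u) v h1.ne'
  obtain ⟨y', hy', hs'⟩ := rep_bb a ((r - s) • v) u h1.ne'
  refine ⟨y + -y', by rw [map_add, map_neg, hy, hy', e]; abel, (hs.add hs'.neg).mono ?_⟩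
  simp only [Prod.smul_snd, Pi.smul_apply, smul_eq_mul, mul_pow, ← Finset.mul_sum]
  have h3 : (ε : ℝ)⁻¹ ^ 2 * (r - s) ^ 2 ≤ (ε : ℝ) ^ 2 := by
    rw [inv_pow, inv_mul_le_iff₀ (by positivity)]
    have : r - s ≤ (ε : ℝ) ^ 2 := by linarith
    have h0 : 0 ≤ r - s := by linarith
    nlinarith
  have hu : 0 ≤ ∑ k, u.2 k ^ 2 := by positivity
  have hv : 0 ≤ ∑ k, v.2 k ^ 2 := by positivity
  have h4 := mul_le_mul_of_nonneg_right h3 hu
  have h5 := mul_le_mul_of_nonneg_right h3 hv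
  nlinarith

/-- Homogeneous coordinates. -/
def hp (b : Fin d → ℝ) (o : Option (Fin d)) : ℝ := o.elim 1 b

/-- Basic patterns. -/
def bas (o : Option (Fin d)) : Pat d := o.elim (1, 0) fun k => (0, Pi.single k 1)

theorem evp_bas (b : Fin d → ℝ) (o : Option (Fin d)) : evp b (bas o) = hp b o := by
  cases o with
  | none => simp [bas, hp, evp_apply]
  | some k => simp [bas, hp, evp_apply, Pi.single_apply]

/-- The criterion over the reals for an indexed family. -/
def CritR : Prop :=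
  ∃ P : Option (Fin d) → Option (Fin d) → ℝ ⊗[ℚ] ℝ,
    (∀ i, ∑ k, ∑ l, (hp (a i) k ⊗ₜ[ℚ] hp (a i) l) * P k l = 0) ∧
    ∀ k l : Fin d, LinearMap.mul' ℚ ℝ (P (some k) (some l)) = if k = l then 1 else 0

/-- Real multiples of a pattern. -/
noncomputable def sm (e : Pat d) : ℝ →ₗ[ℚ] Pat d :=
  (LinearMap.toSpanSingleton ℝ _ e).restrictScalars ℚ

/-- The invariants of a tensor entry. -/
noncomputable def bt (u v : Pat d) : ℝ ⊗[ℚ] ℝ →ₗ[ℚ] Tgt d A :=
  TensorProduct.lift ((bb a).compl₁₂ (sm u) (sm v))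

theorem bt_tmul (u v : Pat d) (r s : ℝ) : bt a u v (r ⊗ₜ s) = bb a (r • u) (s • v) := rfl

theorem bt_fst (u v : Pat d) (w : ℝ ⊗[ℚ] ℝ) (i : A) :
    (bt a u v w).1 i = lam ((evp (a i) u ⊗ₜ evp (a i) v) * w) := by
  induction w with
  | zero => simp
  | tmul r s =>
    rw [bt_tmul, bb_fst, evp_smul, evp_smul, Algebra.TensorProduct.tmul_mul_tmul, mul_comm r,
      mul_comm s]
  | add w w' h h' => simp only [map_add, Prod.fst_add, Pi.add_apply, h, h', mul_add]

theorem bt_snd (u v : Pat d) (w : ℝ ⊗[ℚ] ℝ) (x : Fin d → ℝ) :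
    (bt a u v w).2 x =
      LinearMap.mul' ℚ ℝ w * (2 * (∑ k, u.2 k * x k) * ∑ k, v.2 k * x k) := by
  induction w with
  | zero => simp
  | tmul r s =>
    rw [bt_tmul, bb_snd]
    simp only [Prod.smul_snd, Pi.smul_apply, smul_eq_mul, mul_assoc, ← Finset.mul_sum,
      LinearMap.mul'_apply]
    ring
  | add w w' h h' => simp only [map_add, Prod.snd_add, Pi.add_apply, h, h', add_mul]

theorem bt_cheap (u v : Pat d) (w : ℝ ⊗[ℚ] ℝ) :
    bt a u v w - bb a u (LinearMap.mul' ℚ ℝ w • v) ∈ Cheap a := by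
  induction w with
  | zero => simp
  | tmul r s =>
    rw [bt_tmul, LinearMap.mul'_apply, mul_smul]
    exact cheap_move a u (s • v) r
  | add w w' h h' =>
    have := add_mem h h'
    simp only [map_add, add_smul]
    convert this using 1
    abel

theorem exists_cube (h : CritR a) (η : ℝ) (hη : 0 < η) :
    ∃ p q y : QA (Pat d), Pos p ∧ Pos q ∧ tau q = 0 ∧ Small y η ∧
      (∀ i, mp (evp (a i)) (p - q + y) ∈ aug ℝ ^ 3) ∧
      ∀ v, gam (p - q + y) v = 2 * ∑ k, v k ^ 2 := by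
  obtain ⟨P, hP1, hP2⟩ := h
  let p : QA (Pat d) := ∑ k, (sg (bas (some k)) + sg (-bas (some k)))
  let q : QA (Pat d) := ∑ _k : Fin d, (1 + 1)
  have he : Phi a (p - q) = ∑ k, bb a (bas (some k)) (bas (some k)) := by
    simp only [p, q]
    rw [← Finset.sum_sub_distrib, map_sum]
    apply Finset.sum_congr rfl
    intro k _
    have : sg (bas (some k)) + sg (-bas (some k)) - (1 + 1) =
        -BB (bas (some k)) (-bas (some k)) := by
      have h1 : sg (bas (some k)) * sg (-bas (some k)) = 1 := by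
        rw [← sg_add, add_neg_cancel, sg_zero]
      simp only [BB]
      linear_combination h1
    rw [this, map_neg]
    change -bb a _ _ = _
    rw [map_neg, neg_neg]
  have hc : (∑ k, ∑ l, bt a (bas k) (bas l) (P k l)) - Phi a (p - q) ∈ Cheap a := by
    have h1 : (∑ k, ∑ l, (bt a (bas k) (bas l) (P k l) -
        bb a (bas k) (LinearMap.mul' ℚ ℝ (P k l) • bas l))) ∈ Cheap a :=
      sum_mem fun k _ => sum_mem fun l _ => bt_cheap a _ _ _
    have h2 : (∑ l, bb a (bas none) (LinearMap.mul' ℚ ℝ (P none l) • bas l)) ∈ Cheap a :=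
      sum_mem fun l _ => cheap_const a _ _ rfl
    have h3 : (∑ k : Fin d, bb a (bas (some k)) (LinearMap.mul' ℚ ℝ (P (some k) none) •
        bas none)) ∈ Cheap a :=
      sum_mem fun l _ => by
        rw [bb_comm]
        exact cheap_const a _ _ (by simp [bas])
    have h4 : (∑ k, ∑ l, bb a (bas k) (LinearMap.mul' ℚ ℝ (P k l) • bas l)) =
        (∑ l, bb a (bas none) (LinearMap.mul' ℚ ℝ (P none l) • bas l)) +
        ((∑ k : Fin d, bb a (bas (some k)) (LinearMap.mul' ℚ ℝ (P (some k) none) •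
        bas none)) + ∑ k, bb a (bas (some k)) (bas (some k))) := by
      rw [Fintype.sum_option, ← Finset.sum_add_distrib]
      congr 1
      apply Finset.sum_congr rfl
      intro k _
      rw [Fintype.sum_option]
      congr 1
      rw [Finset.sum_eq_single k]
      · rw [hP2, if_pos rfl, one_smul]
      · intro l _ hl
        rw [hP2, if_neg hl.symm, zero_smul, map_zero]
      · simp
    have := add_mem h1 (add_mem h2 h3)
    simp only [Finset.sum_sub_distrib] at this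
    rw [h4] at this
    rw [he]
    convert this using 1
    abel
  obtain ⟨y, hy, hs⟩ := hc η hη
  have hsum : Phi a (p - q + y) = ∑ k, ∑ l, bt a (bas k) (bas l) (P k l) := by
    rw [map_add, hy]
    abel
  refine ⟨p, q, y, Pos.sum _ fun k _ => (Pos.of_sg _).add (Pos.of_sg _),
    Pos.sum _ fun k _ => Pos.one.add Pos.one, ?_, hs, fun i => ?_, fun v => ?_⟩
  · simp only [q, map_sum, map_add, tau_one]
    simp
  · rw [← q3_eq_zero, ← Phi_fst, hsum]
    simp only [Prod.fst_sum, Finset.sum_apply, bt_fst, evp_bas]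
    simp only [← map_sum]
    rw [hP1, map_zero]
  · rw [← Phi_snd a, hsum]
    simp only [Prod.snd_sum, Finset.sum_apply, bt_snd]
    simp only [Fintype.sum_option, hP2]
    simp [bas, Pi.single_apply, Finset.mul_sum, pow_two, mul_assoc]

/-- The quadratic form of a multiset of patterns. -/
noncomputable def Qf (v : Fin d → ℝ) : Multiset (Pat d) →+ ℝ :=
  Multiset.sumAddMonoidHom.comp (Multiset.mapAddMonoidHom fun π => (∑ k, π.2 k * v k) ^ 2)

theorem Qf_apply (v : Fin d → ℝ) (s : Multiset (Pat d)) :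
    Qf v s = (s.map fun π => (∑ k, π.2 k * v k) ^ 2).sum := rfl

theorem gam_ofM (s : Multiset (Pat d)) (v : Fin d → ℝ) : gam (ofM s) v = Qf v s := by
  induction s using Multiset.induction_on with
  | empty => simp [ofM]
  | cons π s ih =>
    rw [← Multiset.singleton_add, ofM_add, map_add, map_add, Pi.add_apply, ih]
    simp [ofM, gam_sg, Qf_apply]

theorem tau_ofM (s : Multiset (Pat d)) :
    tau (ofM s) = (s.map fun π => ∑ k, π.2 k ^ 2).sum := by
  induction s using Multiset.induction_on with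
  | empty => simp [ofM]
  | cons π s ih =>
    rw [← Multiset.singleton_add, ofM_add, map_add, ih]
    simp [ofM, tau_sg]

theorem exists_multisets [Fintype A] (ha : Function.Injective a) (h : CritR a) (η : ℝ)
    (hη : 0 < η) : ∃ (s t : Multiset (Pat d)) (c : ℝ), 0 < c ∧
      (∀ i, s.map (evp (a i)) = t.map (evp (a i))) ∧
      (∀ v, Qf v s = Qf v t + c * ∑ k, v k ^ 2) ∧
      (t.map fun π => ∑ k, π.2 k ^ 2).sum ≤ c * η := by
  obtain ⟨p, q, y, hp, hq, hq0, ⟨p₁, q₁, hp₁, hq₁, rfl, hc₁⟩, h1, h2⟩ := exists_cube a h η hη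
  obtain ⟨ξ, z, hξ, hξ1, hz, hγ, p₂, q₂, hp₂, hq₂, e₂, hc₂⟩ := good_of_cube a ha h1 η hη
  have hz' : z = (ξ * (p + p₁) + q₂) - (ξ * (q + q₁) + p₂) := by
    linear_combination -e₂
  have hP : Pos (ξ * (p + p₁) + q₂) := (hξ.mul (hp.add hp₁)).add hq₂
  have hQ : Pos (ξ * (q + q₁) + p₂) := (hξ.mul (hq.add hq₁)).add hp₂
  have hτ : tau (ξ * (q + q₁) + p₂) ≤ 2 * η := by
    rw [map_add, tau_mul hξ1, map_add, hq0]
    linarith [hp₁.tau_nonneg, hq₂.tau_nonneg]
  generalize ξ * (p + p₁) + q₂ = P at hz' hP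
  generalize ξ * (q + q₁) + p₂ = Q at hz' hQ hτ
  obtain ⟨n, s, hn, hs⟩ := hP.exists_multiset
  obtain ⟨n', t, hn', ht⟩ := hQ.exists_multiset
  have hs' : ofM (n' • s) = ((n * n' : ℕ) : ℚ) • P := by
    rw [ofM_nsmul, ← hs, smul_smul]
    push_cast
    rw [mul_comm]
  have ht' : ofM (n • t) = ((n * n' : ℕ) : ℚ) • Q := by
    rw [ofM_nsmul, ← ht, smul_smul]
    push_cast
    rfl
  refine ⟨n' • s, n • t, 2 * ((n * n' : ℕ) : ℝ), by positivity, fun i => ?_, fun v => ?_, ?_⟩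
  · apply ofM_inj
    rw [← mp_ofM, ← mp_ofM, hs', ht', map_smul, map_smul]
    have := hz i
    rw [hz', map_sub, sub_eq_zero] at this
    rw [this]
  · rw [← gam_ofM, ← gam_ofM, hs', ht', map_smul, map_smul]
    have := h2 v
    rw [← hγ, hz', map_sub, Pi.sub_apply] at this
    simp only [Pi.smul_apply, Rat.smul_def, Rat.cast_natCast]
    linear_combination ((n * n' : ℕ) : ℝ) * this
  · rw [← tau_ofM, ht', map_smul, Rat.smul_def, Rat.cast_natCast]
    have : (0 : ℝ) ≤ ((n * n' : ℕ) : ℝ) := by positivity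
    nlinarith

end Vale.Agent.P058
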