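import Mathlib

/-! Definitions for Euclidean Ramsey sets. -/

namespace Vale.Agent.P058

open scoped TensorProduct

/-- `A` is Ramsey: for every number of colours `r ≥ 2` there is a dimension `D ≥ 1` such that
every `r`-colouring of `ℝ^D` is constant on some congruent copy of `A`. -/
def IsRamsey {d : ℕ} (A : Set (EuclideanSpace ℝ (Fin d))) : Prop :=
  ∀ r : ℕ, 2 ≤ r → ∃ D : ℕ, 1 ≤ D ∧ ∀ c : EuclideanSpace ℝ (Fin D) → Fin r,
    ∃ φ : A → EuclideanSpace ℝ (Fin D), (∀ a b : A, dist (φ a) (φ b) = dist a b) ∧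
      ∀ a b : A, c (φ a) = c (φ b)

/-- The isometries of `ℝ^n` that map `X` onto itself act transitively on `X`. -/
def IsTransitiveSet {n : ℕ} (X : Set (EuclideanSpace ℝ (Fin n))) : Prop :=
  ∀ x ∈ X, ∀ y ∈ X, ∃ f : EuclideanSpace ℝ (Fin n) ≃ᵢ EuclideanSpace ℝ (Fin n),
    f '' X = X ∧ f x = y

/-- `A` is congruent to a subset of a finite transitive set. -/
def IsSubtransitive {d : ℕ} (A : Set (EuclideanSpace ℝ (Fin d))) : Prop :=
  ∃ (n : ℕ) (X : Set (EuclideanSpace ℝ (Fin n))), X.Finite ∧ IsTransitiveSet X ∧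
    ∃ φ : A → EuclideanSpace ℝ (Fin n), (∀ a b : A, dist (φ a) (φ b) = dist a b) ∧
      ∀ a : A, φ a ∈ X

/-- Homogeneous coordinates `(1, a₁, …, a_d)` of a point whose coordinates lie in `F`. -/
noncomputable def homog (F : Subfield ℝ) {d : ℕ} (a : EuclideanSpace ℝ (Fin d)) (ha : ∀ k, a k ∈ F) :
    Option (Fin d) → F
  | none => 1
  | some k => ⟨a k, ha k⟩

/-- The tensor criterion over a subfield `F` of `ℝ` that contains all coordinates: there is a
`(d+1) × (d+1)` matrix `P` over `F ⊗[ℚ] F` with `∑ (p_k ⊗ p_l) P_kl = 0` for the homogeneous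
coordinates `p` of every point, and whose spatial block is sent to the identity matrix by the
multiplication map `F ⊗[ℚ] F → F`. -/
def TensorCriterion (F : Subfield ℝ) {d : ℕ} (A : Set (EuclideanSpace ℝ (Fin d)))
    (hF : ∀ a ∈ A, ∀ k, a k ∈ F) : Prop :=
  ∃ P : Option (Fin d) → Option (Fin d) → F ⊗[ℚ] F,
    (∀ a, ∀ ha : a ∈ A,
      ∑ k, ∑ l, (homog F a (hF a ha) k ⊗ₜ[ℚ] homog F a (hF a ha) l) * P k l = 0) ∧
    ∀ k l : Fin d, LinearMap.mul' ℚ F (P (some k) (some l)) = if k = l then 1 else 0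

end Vale.Agent.P058
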