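import Vale.Agent.P058.Main

/-! Spherical sets of at most five points are Ramsey. -/

namespace Vale.Agent.P058

open scoped TensorProduct InnerProductSpace

variable {d : ℕ}

theorem critR_of_indep {A : Type} [Fintype A] [DecidableEq A] (a : A → Fin d → ℝ)
    (P₀ : Option (Fin d) → Option (Fin d) → ℝ)
    (h1 : ∀ i, ∑ k, ∑ l, hp (a i) k * hp (a i) l * P₀ k l = 0)
    (h2 : ∀ k l : Fin d, P₀ (some k) (some l) = if k = l then 1 else 0)
    (M : A → Option (Fin d) → Option (Fin d) → ℝ)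
    (h3 : ∀ i j, ∑ k, ∑ l, hp (a i) k * hp (a i) l * M j k l = if i = j then 1 else 0) :
    CritR a := by
  let μ : ℝ ⊗[ℚ] ℝ →ₐ[ℚ] ℝ := Algebra.TensorProduct.lmul' ℚ
  have hμ : ∀ x y : ℝ, μ (x ⊗ₜ y) = x * y := fun x y =>
    Algebra.TensorProduct.lmul'_apply_tmul (R := ℚ) x y
  let pr : A → (Option (Fin d) → Option (Fin d) → ℝ) → ℝ ⊗[ℚ] ℝ := fun i Q =>
    ∑ k, ∑ l, (hp (a i) k ⊗ₜ[ℚ] hp (a i) l) * (Q k l ⊗ₜ[ℚ] 1)
  have hpr : ∀ i Q, μ (pr i Q) = ∑ k, ∑ l, hp (a i) k * hp (a i) l * Q k l := by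
    intro i Q
    simp only [pr, map_sum, map_mul, hμ, mul_one]
  let N : Matrix A A (ℝ ⊗[ℚ] ℝ) := Matrix.of fun i j => pr i (M j)
  let ε : A → ℝ ⊗[ℚ] ℝ := fun i => pr i P₀
  let v : A → ℝ ⊗[ℚ] ℝ := N.adjugate.mulVec ε
  have hdet : μ N.det = 1 := by
    rw [AlgHom.map_det]
    have : μ.mapMatrix N = 1 := by
      ext i j
      rw [Matrix.one_apply, ← h3, ← hpr]
      rfl
    rw [this, Matrix.det_one]
  have hv : ∀ j, μ (v j) = 0 := by
    intro j
    simp only [v, Matrix.mulVec, dotProduct, map_sum, map_mul, ε, hpr, h1, mul_zero,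
      Finset.sum_const_zero]
  have hNv : ∀ i, ∑ j, N i j * v j = N.det * ε i := by
    intro i
    have : N.mulVec v = N.det • ε := by
      simp only [v]
      rw [Matrix.mulVec_mulVec, Matrix.mul_adjugate, Matrix.smul_mulVec, Matrix.one_mulVec]
    exact congrFun this i
  refine ⟨fun k l => N.det * (P₀ k l ⊗ₜ[ℚ] 1) - ∑ j, (M j k l ⊗ₜ[ℚ] 1) * v j, fun i => ?_,
    fun k l => ?_⟩
  · have e1 : ∑ k, ∑ l, (hp (a i) k ⊗ₜ[ℚ] hp (a i) l) * (N.det * (P₀ k l ⊗ₜ[ℚ] 1)) =
        N.det * ε i := by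
      simp only [ε, pr, Finset.mul_sum, mul_left_comm]
    have e2 : ∑ k, ∑ l, (hp (a i) k ⊗ₜ[ℚ] hp (a i) l) * ∑ j, (M j k l ⊗ₜ[ℚ] (1 : ℝ)) * v j =
        ∑ j, N i j * v j := by
      simp only [N, Matrix.of_apply, pr, Finset.mul_sum, Finset.sum_mul, mul_assoc]
      rw [Finset.sum_comm (s := (Finset.univ : Finset A))]
      apply Finset.sum_congr rfl
      intro k _
      rw [Finset.sum_comm]
    simp only [mul_sub, Finset.sum_sub_distrib]
    rw [e1, e2, hNv, sub_self]
  · change μ _ = _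
    simp only [map_sub, map_mul, map_sum, hdet, hv, hμ, h2]
    simp

theorem exists_line {z p q q' : EuclideanSpace ℝ (Fin d)} {ρ : ℝ} (hp0 : dist p z = ρ)
    (hq : dist q z = ρ) (hq' : dist q' z = ρ) (h : q ≠ p) (h' : q' ≠ p) :
    ∃ g : Option (Fin d) → ℝ, ∑ k, hp p k * g k = 1 ∧ ∑ k, hp q k * g k = 0 ∧
      ∑ k, hp q' k * g k = 0 := by
  have hn : p - q ∉ Submodule.span ℝ {q' - q} := by
    rw [Submodule.mem_span_singleton]
    rintro ⟨t, ht⟩
    have e1 : ‖(q - z) + t • (q' - q)‖ ^ 2 = ‖q - z‖ ^ 2 := by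
      rw [ht, ← dist_eq_norm, hq, ← hp0, dist_eq_norm]
      congr 2
      abel
    have e2 : ‖(q - z) + (q' - q)‖ ^ 2 = ‖q - z‖ ^ 2 := by
      rw [← dist_eq_norm q, hq, ← hq', dist_eq_norm]
      congr 2
      abel
    rw [norm_add_sq_real] at e1 e2
    rw [inner_smul_right, norm_smul, mul_pow, Real.norm_eq_abs, sq_abs] at e1
    have e3 : t * (t - 1) * ‖q' - q‖ ^ 2 = 0 := by linear_combination e1 - t * e2
    rcases mul_eq_zero.1 e3 with e | e
    · rcases mul_eq_zero.1 e with e | e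
      · rw [e, zero_smul] at ht
        exact h (sub_eq_zero.1 ht.symm).symm
      · rw [sub_eq_zero.1 e, one_smul] at ht
        exact h' (sub_left_injective ht)
    · rw [norm_eq_zero.1 (pow_eq_zero_iff two_ne_zero |>.1 e), smul_zero] at ht
      exact h (sub_eq_zero.1 ht.symm).symm
  obtain ⟨f, hf0, hf1⟩ := LinearMap.exists_extend_of_notMem
    (0 : Submodule.span ℝ {q' - q} →ₗ[ℝ] ℝ) hn 1
  have hf2 : f (q' - q) = 0 :=
    LinearMap.congr_fun hf0 ⟨q' - q, Submodule.mem_span_singleton_self _⟩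
  have hexp : ∀ v : EuclideanSpace ℝ (Fin d), ∑ k, hp v k *
      (fun o : Option (Fin d) => o.elim (-f q) fun k => f (EuclideanSpace.single k 1)) k =
      f (v - q) := by
    intro v
    have : v = ∑ k, v k • EuclideanSpace.single k (1 : ℝ) := by
      ext k
      simp [Pi.single_apply]
    rw [map_sub]
    conv_rhs => rw [this]
    simp [Fintype.sum_option, hp]
    ring
  exact ⟨_, (hexp p).trans hf1, (hexp q).trans (by simp), (hexp q').trans hf2⟩

theorem exists_line_two {A : Type} (a : A → EuclideanSpace ℝ (Fin d))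
    (ha : Function.Injective a) {z : EuclideanSpace ℝ (Fin d)} {ρ : ℝ}
    (hs : ∀ i, dist (a i) z = ρ) (j : A) (S : Finset A) (hj : j ∉ S) (hS : S.card ≤ 2) :
    ∃ g : Option (Fin d) → ℝ, ∑ k, hp (a j) k * g k = 1 ∧ ∀ i ∈ S, ∑ k, hp (a i) k * g k = 0 := by
  classical
  have hne : ∀ i ∈ S, a i ≠ a j := fun i hi h => hj (ha h ▸ hi)
  rcases S.eq_empty_or_nonempty with rfl | ⟨x, hx⟩
  · exact ⟨fun o => o.elim 1 fun _ => 0, by simp [Fintype.sum_option, hp], by simp⟩
  · obtain ⟨y, hy, hxy⟩ : ∃ y ∈ S, ∀ i ∈ S, i = x ∨ i = y := by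
      rcases (S.erase x).eq_empty_or_nonempty with h | ⟨y, hy⟩
      · refine ⟨x, hx, fun i hi => Or.inl ?_⟩
        by_contra hix
        have : i ∈ S.erase x := Finset.mem_erase.2 ⟨hix, hi⟩
        simp [h] at this
      · refine ⟨y, Finset.mem_of_mem_erase hy, fun i hi => ?_⟩
        by_cases hix : i = x
        · exact Or.inl hix
        · have h1 : (S.erase x).card ≤ 1 := by
            rw [Finset.card_erase_of_mem hx]
            omega
          exact Or.inr (Finset.card_le_one.1 h1 _ (Finset.mem_erase.2 ⟨hix, hi⟩) _ hy)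
    obtain ⟨g, h1, h2, h3⟩ := exists_line (hs j) (hs x) (hs y) (hne x hx) (hne y hy)
    refine ⟨g, h1, fun i hi => ?_⟩
    rcases hxy i hi with rfl | rfl
    · exact h2
    · exact h3

theorem ramsey_of_five (A : Set (EuclideanSpace ℝ (Fin d))) (hfin : A.Finite)
    (hne : A.Nonempty) (hcard : A.ncard ≤ 5) (z : EuclideanSpace ℝ (Fin d)) (ρ : ℝ)
    (hs : A ⊆ Metric.sphere z ρ) : IsRamsey A := by
  classical
  rw [ramsey_iff_critR A hfin hne]
  have := hfin.fintype
  have hc : Fintype.card A ≤ 5 := by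
    rw [← Nat.card_eq_fintype_card, Nat.card_coe_set_eq]
    exact hcard
  have hs' : ∀ i : A, dist i.1 z = ρ := fun i => hs i.2
  have hM : ∀ j : A, ∃ M : Option (Fin d) → Option (Fin d) → ℝ, ∀ i : A,
      ∑ k, ∑ l, hp i.1 k * hp i.1 l * M k l = if i = j then 1 else 0 := by
    intro j
    have h4 : (Finset.univ.erase j).card ≤ 4 := by
      rw [Finset.card_erase_of_mem (Finset.mem_univ _), Finset.card_univ]
      omega
    obtain ⟨S, hS1, hS2⟩ := Finset.exists_subset_card_eq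
      (min_le_right 2 (Finset.univ.erase j).card)
    obtain ⟨g, hg1, hg2⟩ := exists_line_two (fun i : A => i.1) Subtype.val_injective hs' j S
      (fun h => by simpa using hS1 h) (hS2.trans_le (min_le_left _ _))
    obtain ⟨g', hg1', hg2'⟩ := exists_line_two (fun i : A => i.1) Subtype.val_injective hs' j
      (Finset.univ.erase j \ S) (by simp) (by rw [Finset.card_sdiff_of_subset hS1]; omega)
    refine ⟨fun k l => g k * g' l, fun i => ?_⟩
    have e : ∑ k, ∑ l, hp i.1 k * hp i.1 l * (g k * g' l) =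
        (∑ k, hp i.1 k * g k) * ∑ l, hp i.1 l * g' l := by
      rw [Finset.sum_mul_sum]
      apply Finset.sum_congr rfl
      intro k _
      apply Finset.sum_congr rfl
      intro l _
      ring
    rw [e]
    split_ifs with hij
    · rw [hij, hg1, hg1', mul_one]
    · by_cases hi : i ∈ S
      · rw [hg2 i hi, zero_mul]
      · rw [hg2' i (by simp [hij, hi]), mul_zero]
  choose M hM using hM
  refine critR_of_indep _ (fun k l => k.elim (l.elim (∑ m, z m ^ 2 - ρ ^ 2) fun l => -z l)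
    fun k => l.elim (-z k) fun l => if k = l then 1 else 0) (fun i => ?_) (fun k l => rfl) M
    (fun i j => hM j i)
  have h1 := dist_sq_eq i.1 z
  rw [hs' i] at h1
  simp only [Fintype.sum_option, hp, Option.elim_none, Option.elim_some, mul_ite, mul_one,
    mul_zero, Finset.sum_ite_eq, Finset.mem_univ, if_true, one_mul, Finset.sum_add_distrib]
  rw [← h1]
  simp only [sub_sq, Finset.sum_add_distrib, Finset.sum_sub_distrib, mul_neg,
    Finset.sum_neg_distrib, mul_assoc, ← Finset.mul_sum, ← pow_two]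
  ring

end Vale.Agent.P058
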