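import Vale.Agent.P058.Alg

/-! Approximation of elements of the pattern algebra by elements invisible at every point. -/

namespace Vale.Agent.P058

/-- Affine patterns: a constant term and a slope. -/
abbrev Pat (d : ℕ) := ℝ × (Fin d → ℝ)

variable {d : ℕ}

/-- Evaluation of patterns at a point. -/
def evp (a : Fin d → ℝ) : Pat d →+ ℝ where
  toFun π := π.1 + ∑ k, π.2 k * a k
  map_zero' := by simp
  map_add' π π' := by simp [add_mul, Finset.sum_add_distrib]; ring

theorem evp_apply (a : Fin d → ℝ) (π : Pat d) : evp a π = π.1 + ∑ k, π.2 k * a k := rfl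

theorem evp_smul (a : Fin d → ℝ) (r : ℝ) (π : Pat d) : evp a (r • π) = r * evp a π := by
  simp [evp_apply, mul_add, Finset.mul_sum, mul_assoc]

/-- Forget the constant terms. -/
noncomputable def slope : QA (Pat d) →ₐ[ℚ] QA (Fin d → ℝ) := mp (AddMonoidHom.snd _ _)

/-- The quadratic form of an element. -/
noncomputable def gam : QA (Pat d) →ₗ[ℚ] ((Fin d → ℝ) → ℝ) :=
  (lin fun β : Fin d → ℝ => fun v : Fin d → ℝ => (∑ k, β k * v k) ^ 2).comp slope.toLinearMap

/-- The trace cost of an element. -/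
noncomputable def tau : QA (Pat d) →ₗ[ℚ] ℝ :=
  (lin fun β : Fin d → ℝ => ∑ k, β k ^ 2).comp slope.toLinearMap

theorem slope_sg (π : Pat d) : slope (sg π) = sg π.2 := mp_sg _ _

theorem gam_sg (π : Pat d) (v : Fin d → ℝ) : gam (sg π) v = (∑ k, π.2 k * v k) ^ 2 := by
  simp [gam, slope_sg, lin_sg]

theorem tau_sg (π : Pat d) : tau (sg π) = ∑ k, π.2 k ^ 2 := by
  simp [tau, slope_sg, lin_sg]

theorem gam_mul {ξ : QA (Pat d)} (h : slope ξ = 1) (x : QA (Pat d)) : gam (ξ * x) = gam x := by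
  simp [gam, h]

theorem tau_mul {ξ : QA (Pat d)} (h : slope ξ = 1) (x : QA (Pat d)) : tau (ξ * x) = tau x := by
  simp [tau, h]

theorem Pos.tau_nonneg {x : QA (Pat d)} (hx : Pos x) : 0 ≤ tau x := by
  induction hx with
  | zero => simp
  | single r hr m =>
    rw [map_smul, tau_sg, Rat.smul_def]
    positivity
  | add _ _ ih1 ih2 => rw [map_add]; positivity

/-- Dilation of patterns. -/
noncomputable def dil (M : Type) [AddCommGroup M] (m : ℕ) : M →+ M := nsmulAddMonoidHom m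

theorem dil_apply {M : Type} [AddCommGroup M] (m : ℕ) (t : M) : dil M m t = m • t := rfl

theorem gam_dil (m : ℕ) (x : QA (Pat d)) : gam (mp (dil _ m) x) = ((m : ℚ) ^ 2) • gam x := by
  refine QA_ext (f := gam.comp (mp (dil _ m)).toLinearMap) (g := ((m : ℚ) ^ 2) • gam) ?_ x
  intro π
  funext v
  simp only [LinearMap.comp_apply, AlgHom.toLinearMap_apply, mp_sg, LinearMap.smul_apply,
    Pi.smul_apply, gam_sg, dil_apply, Rat.smul_def]
  have : ∀ k, (m • π).2 k = m * π.2 k := fun k => by simp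
  simp only [this, mul_assoc, ← Finset.mul_sum]
  push_cast
  ring

theorem tau_dil (m : ℕ) (x : QA (Pat d)) : tau (mp (dil _ m) x) = ((m : ℚ) ^ 2) • tau x := by
  refine QA_ext (f := tau.comp (mp (dil _ m)).toLinearMap) (g := ((m : ℚ) ^ 2) • tau) ?_ x
  intro π
  simp only [LinearMap.comp_apply, AlgHom.toLinearMap_apply, mp_sg, LinearMap.smul_apply,
    tau_sg, dil_apply, Rat.smul_def]
  have : ∀ k, (m • π).2 k = m * π.2 k := fun k => by simp
  simp only [this, mul_pow, ← Finset.mul_sum]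
  push_cast
  ring

theorem evp_dil (a : Fin d → ℝ) (m : ℕ) (x : QA (Pat d)) :
    mp (evp a) (mp (dil _ m) x) = mp (dil _ m) (mp (evp a) x) := by
  refine QA_ext (f := (mp (evp a)).toLinearMap.comp (mp (dil _ m)).toLinearMap)
    (g := (mp (dil _ m)).toLinearMap.comp (mp (evp a)).toLinearMap) ?_ x
  intro π
  simp only [LinearMap.comp_apply, AlgHom.toLinearMap_apply, mp_sg, dil_apply, map_nsmul]

/-- `x` is a difference of positive elements of total cost at most `η`. -/
def Small (x : QA (Pat d)) (η : ℝ) : Prop :=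
  ∃ p q, Pos p ∧ Pos q ∧ x = p - q ∧ tau p + tau q ≤ η

theorem Small.mono {x : QA (Pat d)} {η η' : ℝ} (h : Small x η) (hη : η ≤ η') : Small x η' := by
  obtain ⟨p, q, hp, hq, e, h⟩ := h
  exact ⟨p, q, hp, hq, e, h.trans hη⟩

theorem Small.zero : Small (0 : QA (Pat d)) 0 := ⟨0, 0, Pos.zero, Pos.zero, by simp, by simp⟩

theorem Small.add {x y : QA (Pat d)} {η η' : ℝ} (h : Small x η) (h' : Small y η') :
    Small (x + y) (η + η') := by
  obtain ⟨p, q, hp, hq, rfl, h⟩ := h
  obtain ⟨p', q', hp', hq', rfl, h'⟩ := h'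
  exact ⟨p + p', q + q', hp.add hp', hq.add hq', by ring, by simp only [map_add]; linarith⟩

theorem Small.neg {x : QA (Pat d)} {η : ℝ} (h : Small x η) : Small (-x) η := by
  obtain ⟨p, q, hp, hq, rfl, h⟩ := h
  exact ⟨q, p, hq, hp, by ring, by linarith⟩

theorem Small.smul_nonneg {x : QA (Pat d)} {η : ℝ} (h : Small x η) {c : ℚ} (hc : 0 ≤ c) :
    Small (c • x) (c * η) := by
  obtain ⟨p, q, hp, hq, rfl, h⟩ := h
  refine ⟨c • p, c • q, hp.smul hc, hq.smul hc, smul_sub _ _ _, ?_⟩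
  rw [map_smul, map_smul, Rat.smul_def, Rat.smul_def, ← mul_add]
  exact mul_le_mul_of_nonneg_left h (by exact_mod_cast hc)

theorem Small.smul {x : QA (Pat d)} {η : ℝ} (h : Small x η) (c : ℚ) :
    Small (c • x) (|(c : ℝ)| * η) := by
  rcases le_total 0 c with hc | hc
  · rw [abs_of_nonneg (by exact_mod_cast hc)]
    exact h.smul_nonneg hc
  · rw [abs_of_nonpos (by exact_mod_cast hc)]
    have := (h.smul_nonneg (c := -c) (by linarith)).neg
    simpa using this

theorem Small.avg {x ξ : QA (Pat d)} {η : ℝ} (h : Small x η) (h1 : Pos ξ) (h2 : slope ξ = 1) :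
    Small (ξ * x) η := by
  obtain ⟨p, q, hp, hq, rfl, h⟩ := h
  exact ⟨ξ * p, ξ * q, h1.mul hp, h1.mul hq, mul_sub _ _ _, by rwa [tau_mul h2, tau_mul h2]⟩

theorem Small.dil {x : QA (Pat d)} {η : ℝ} (h : Small x η) (m : ℕ) :
    Small (mp (dil _ m) x) ((m : ℝ) ^ 2 * η) := by
  obtain ⟨p, q, hp, hq, rfl, h⟩ := h
  refine ⟨_, _, hp.map _, hq.map _, map_sub _ _ _, ?_⟩
  rw [tau_dil, tau_dil, Rat.smul_def, Rat.smul_def, ← mul_add]
  push_cast
  exact mul_le_mul_of_nonneg_left h (by positivity)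

theorem exists_small (x : QA (Pat d)) : ∃ C, 0 ≤ C ∧ Small x C := by
  obtain ⟨p, q, hp, hq, e⟩ := exists_pos_sub x
  exact ⟨_, add_nonneg hp.tau_nonneg hq.tau_nonneg, p, q, hp, hq, e, le_rfl⟩

theorem exists_scale (c η : ℝ) (hη : 0 < η) : ∃ η' > 0, |c| * η' ≤ η := by
  refine ⟨η / (|c| + 1), by positivity, ?_⟩
  rw [← mul_div_assoc, div_le_iff₀ (by positivity)]
  nlinarith [abs_nonneg c]

theorem exists_nat_big (C η : ℝ) (hη : 0 < η) : ∃ m : ℕ, 2 ≤ m ∧ C / m ≤ η := by
  obtain ⟨n, hn⟩ := exists_nat_ge (C / η)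
  refine ⟨n + 2, by omega, ?_⟩
  rw [div_le_iff₀ (by positivity)]
  rw [div_le_iff₀ hη] at hn
  push_cast
  nlinarith

variable {A : Type} (a : A → Fin d → ℝ)

/-- Elements that, after averaging over constants, are close to elements invisible at all
points and having the same quadratic form. -/
noncomputable def Good : Submodule ℚ (QA (Pat d)) where
  carrier := {x | ∀ η > 0, ∃ ξ z, Pos ξ ∧ slope ξ = 1 ∧ (∀ i, mp (evp (a i)) z = 0) ∧
    gam z = gam x ∧ Small (ξ * x - z) η}
  zero_mem' := fun η hη => ⟨1, 0, Pos.one, map_one _, fun _ => map_zero _, rfl,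
    by simpa using Small.zero.mono hη.le⟩
  add_mem' := by
    intro x y hx hy η hη
    obtain ⟨ξ, z, h1, h2, h3, h4, h5⟩ := hx (η / 2) (by positivity)
    obtain ⟨ξ', z', h1', h2', h3', h4', h5'⟩ := hy (η / 2) (by positivity)
    refine ⟨ξ * ξ', ξ' * z + ξ * z', h1.mul h1', by simp [h2, h2'], fun i => by simp [h3, h3'],
      by rw [map_add, map_add, gam_mul h2, gam_mul h2', h4, h4'], ?_⟩
    have := (h5.avg h1' h2').add (h5'.avg h1 h2)
    rw [add_halves] at this
    convert this using 1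
    ring
  smul_mem' := by
    intro c x hx η hη
    obtain ⟨η', hη', hc⟩ := exists_scale c η hη
    obtain ⟨ξ, z, h1, h2, h3, h4, h5⟩ := hx η' hη'
    refine ⟨ξ, c • z, h1, h2, fun i => by simp [h3], by simp [h4], ?_⟩
    have := (h5.smul c).mono hc
    rwa [smul_sub, ← mul_smul_comm] at this

theorem good_of_ker {x : QA (Pat d)} (h : ∀ i, mp (evp (a i)) x = 0) : x ∈ Good a :=
  fun η hη => ⟨1, x, Pos.one, map_one _, h, rfl, by simpa using Small.zero.mono hη.le⟩

theorem good_closed {x : QA (Pat d)}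
    (h : ∀ η > 0, ∃ y ∈ Good a, gam y = gam x ∧ Small (x - y) η) : x ∈ Good a := by
  intro η hη
  obtain ⟨y, hy, e, hs⟩ := h (η / 2) (by positivity)
  obtain ⟨ξ, z, h1, h2, h3, h4, h5⟩ := hy (η / 2) (by positivity)
  refine ⟨ξ, z, h1, h2, h3, h4.trans e, ?_⟩
  have := (hs.avg h1 h2).add h5
  rw [add_halves] at this
  convert this using 1
  ring

theorem good_folner {x y : QA (Pat d)} (hx : Pos x) (hx1 : slope x = 1) (hy : Pos y) :
    (x - 1) * y ∈ Good a := by
  intro η hη
  obtain ⟨K, hK, hKη⟩ := exists_nat_big (2 * tau y) η hη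
  have hK0 : (K : ℚ) ≠ 0 := by positivity
  refine ⟨(K : ℚ)⁻¹ • ∑ k ∈ Finset.range K, x ^ k, 0,
    (Pos.sum _ fun k _ => hx.pow k).smul (by positivity), ?_, fun _ => map_zero _, ?_, ?_⟩
  · rw [map_smul, map_sum]
    simp only [map_pow, hx1, one_pow, Finset.sum_const, Finset.card_range]
    rw [← Nat.cast_smul_eq_nsmul ℚ, smul_smul, inv_mul_cancel₀ hK0, one_smul]
  · rw [sub_mul, map_sub, gam_mul hx1]
    simp
  · rw [sub_zero, smul_mul_assoc, ← mul_assoc, geom_sum_mul, sub_mul, one_mul]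
    have h1 : Small (x ^ K * y - y) (2 * tau y) :=
      ⟨_, _, (hx.pow K).mul hy, hy, rfl, by rw [tau_mul (by simp [hx1])]; linarith⟩
    refine (h1.smul_nonneg (by positivity)).mono ?_
    rw [div_eq_inv_mul] at hKη
    push_cast
    exact hKη

/-- The ideal generated by differences of constant shifts. -/
noncomputable def cst (d : ℕ) : Ideal (QA (Pat d)) :=
  Ideal.span (Set.range fun c : ℝ => sg ((c, 0) : Pat d) - 1)

theorem good_of_cst {x : QA (Pat d)} (hx : x ∈ cst d) : x ∈ Good a := by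
  suffices h : ∀ r, r * x ∈ Good a by simpa using h 1
  induction hx using Submodule.span_induction with
  | mem x hx =>
    obtain ⟨c, rfl⟩ := hx
    intro r
    obtain ⟨p, q, hp, hq, rfl⟩ := exists_pos_sub r
    have h1 : slope (sg ((c, 0) : Pat d)) = 1 := by rw [slope_sg]; rfl
    have := sub_mem (good_folner a (Pos.of_sg _) h1 hp) (good_folner a (Pos.of_sg _) h1 hq)
    convert this using 1
    ring
  | zero => simp
  | add x y _ _ hx hy =>
    intro r
    rw [mul_add]
    exact add_mem (hx r) (hy r)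
  | smul s x _ ih =>
    intro r
    rw [smul_eq_mul, ← mul_assoc]
    exact ih _

theorem evp_surj (b : Fin d → ℝ) : Function.Surjective (evp b) :=
  fun t => ⟨(t, 0), by simp [evp_apply]⟩

theorem aug_le_cst (b : Fin d → ℝ) : aug ℝ ≤ (cst d).map (mp (evp b)) := by
  rw [aug, Ideal.span_le]
  rintro _ ⟨t, rfl⟩
  have : mp (evp b) (sg ((t, 0) : Pat d) - 1) ∈ (cst d).map (mp (evp b)) :=
    Ideal.mem_map_of_mem _ (Ideal.subset_span ⟨t, rfl⟩)
  simpa [mp_sg, evp_apply] using this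

theorem aug_le_ker {b b' : Fin d → ℝ} (h : b ≠ b') :
    aug ℝ ≤ (RingHom.ker (mp (evp b'))).map (mp (evp b)) := by
  rw [aug, Ideal.span_le]
  rintro _ ⟨t, rfl⟩
  obtain ⟨k, hk⟩ := Function.ne_iff.1 h
  have hk' : b k - b' k ≠ 0 := sub_ne_zero.2 hk
  let π : Pat d := (-(t / (b k - b' k)) * b' k, Pi.single k (t / (b k - b' k)))
  have e1 : evp b' π = 0 := by
    simp [π, evp_apply, Pi.single_apply]
  have e2 : evp b π = t := by
    simp only [π, evp_apply, Pi.single_apply, ite_mul, zero_mul, Finset.sum_ite_eq',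
      Finset.mem_univ, if_true]
    field_simp
    ring
  have : mp (evp b) (sg π - 1) ∈ (RingHom.ker (mp (evp b'))).map (mp (evp b)) :=
    Ideal.mem_map_of_mem _ (by simp [RingHom.mem_ker, mp_sg, e1, sg_zero])
  simpa [mp_sg, e2] using this

theorem aug_pow_le (ha : Function.Injective a) (i : A) (S : Finset A) (hS : i ∉ S) :
    aug ℝ ^ (S.card + 1) ≤
      (cst d ⊓ ⨅ j ∈ S, RingHom.ker (mp (evp (a j)))).map (mp (evp (a i))) := by
  classical
  induction S using Finset.induction_on with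
  | empty => simpa using aug_le_cst (a i)
  | insert j S hj ih =>
    rw [Finset.card_insert_of_notMem hj, pow_succ]
    have h1 := ih fun h => hS (Finset.mem_insert_of_mem h)
    have h2 := aug_le_ker (b := a i) (b' := a j) fun h => hS (by simp [ha h])
    refine (Ideal.mul_mono h1 h2).trans ?_
    rw [← Ideal.map_mul]
    apply Ideal.map_mono
    refine Ideal.mul_le_inf.trans ?_
    rw [Finset.iInf_insert]
    exact le_inf (inf_le_left.trans inf_le_left) (le_inf inf_le_right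
      (inf_le_left.trans inf_le_right))

theorem good_of_deep [Fintype A] (ha : Function.Injective a) {x : QA (Pat d)}
    (hx : ∀ i, mp (evp (a i)) x ∈ aug ℝ ^ (Fintype.card A + 1)) : x ∈ Good a := by
  classical
  have h : ∀ i, ∃ y ∈ cst d, (∀ j, j ≠ i → mp (evp (a j)) y = 0) ∧
      mp (evp (a i)) y = mp (evp (a i)) x := by
    intro i
    have h1 := aug_pow_le a ha i (Finset.univ.erase i) (by simp)
    have h2 : aug ℝ ^ (Fintype.card A + 1) ≤ aug ℝ ^ ((Finset.univ.erase i).card + 1) :=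
      Ideal.pow_le_pow_right (Nat.succ_le_succ (Finset.card_le_univ _))
    obtain ⟨y, hy, e⟩ := (Ideal.mem_map_iff_of_surjective _ (mp_surj (evp_surj (a i)))).1
      (h1 (h2 (hx i)))
    refine ⟨y, hy.1, fun j hj => ?_, e⟩
    have := hy.2
    simp only [Submodule.coe_iInf, Set.mem_iInter, SetLike.mem_coe, RingHom.mem_ker] at this
    exact this j (by simp [hj])
  choose y hy1 hy2 hy3 using h
  have e : x = (x - ∑ i, y i) + ∑ i, y i := by ring
  rw [e]
  refine add_mem (good_of_ker a fun i => ?_) (good_of_cst a (sum_mem fun i _ => hy1 i))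
  rw [map_sub, map_sum, Finset.sum_eq_single i (fun j _ hj => hy2 j i hj.symm) (by simp), hy3,
    sub_self]

theorem good_step (k : ℕ)
    (ih : ∀ x : QA (Pat d), (∀ i, mp (evp (a i)) x ∈ aug ℝ ^ (k + 3 + 1)) → x ∈ Good a)
    {x : QA (Pat d)} (hx : ∀ i, mp (evp (a i)) x ∈ aug ℝ ^ (k + 3)) : x ∈ Good a := by
  apply good_closed
  intro η hη
  obtain ⟨C, hC, hs⟩ := exists_small x
  obtain ⟨m, hm, hmη⟩ := exists_nat_big (4 * C) η hη
  have hm' : (2 : ℚ) ≤ m := by exact_mod_cast hm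
  have hw : mp (dil _ m) x - (m : QA (Pat d)) ^ (k + 3) * x ∈ Good a := by
    apply ih
    intro i
    rw [map_sub, map_mul, map_pow, map_natCast, evp_dil]
    exact dil_pow _ m (dil_apply m) _ _ (hx i)
  have e0 : (m : QA (Pat d)) ^ (k + 3) * x = ((m : ℚ) ^ (k + 3)) • x := by
    rw [Algebra.smul_def, map_pow, map_natCast]
  rw [e0] at hw
  set T : ℚ := (m : ℚ) ^ (k + 1) with hT
  have hT1 : (m : ℚ) ≤ T := by
    rw [hT, pow_succ]
    exact le_mul_of_one_le_left (by positivity) (one_le_pow₀ (by linarith))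
  have e1 : (m : ℚ) ^ (k + 3) = m ^ 2 * T := by rw [hT]; ring
  have hm0 : (m : ℚ) ≠ 0 := by positivity
  have hT0 : T - 1 ≠ 0 := by linarith [sub_ne_zero.2 (show T ≠ 1 by linarith)]
  refine ⟨(-((m : ℚ) ^ 2 * (T - 1))⁻¹) • (mp (dil _ m) x - ((m : ℚ) ^ (k + 3)) • x),
    Submodule.smul_mem _ _ hw, ?_, ?_⟩
  · rw [map_smul, map_sub, gam_dil, map_smul, ← sub_smul, smul_smul, e1]
    have : -((m : ℚ) ^ 2 * (T - 1))⁻¹ * (m ^ 2 - m ^ 2 * T) = 1 := by
      field_simp
      ring
    rw [this, one_smul]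
  · have e2 : x - (-((m : ℚ) ^ 2 * (T - 1))⁻¹) • (mp (dil _ m) x - ((m : ℚ) ^ (k + 3)) • x) =
        (((m : ℚ) ^ 2 * (T - 1))⁻¹) • mp (dil _ m) x + (T - 1)⁻¹ • (-x) := by
      rw [e1, neg_smul, sub_neg_eq_add, smul_sub, smul_smul, smul_neg]
      have : ((m : ℚ) ^ 2 * (T - 1))⁻¹ * (m ^ 2 * T) = 1 + (T - 1)⁻¹ := by
        field_simp
        ring
      rw [this, add_smul, one_smul]
      abel
    rw [e2]
    have hpos : 0 < T - 1 := by linarith
    have := ((hs.dil m).smul_nonneg (c := ((m : ℚ) ^ 2 * (T - 1))⁻¹) (by positivity)).add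
      (hs.neg.smul_nonneg (c := (T - 1)⁻¹) (by positivity))
    refine this.mono (le_trans ?_ hmη)
    have hT1' : (m : ℝ) ≤ T := by exact_mod_cast hT1
    have hm'' : (2 : ℝ) ≤ m := by exact_mod_cast hm
    have hpos' : (0 : ℝ) < T - 1 := by linarith
    push_cast
    have e3 : ((m : ℝ) ^ 2 * (T - 1))⁻¹ * (m ^ 2 * C) + ((T : ℝ) - 1)⁻¹ * C =
        2 * C / (T - 1) := by
      field_simp
      ring
    rw [e3, div_le_div_iff₀ hpos' (by linarith)]
    nlinarith

theorem good_of_cube [Fintype A] (ha : Function.Injective a) {x : QA (Pat d)}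
    (hx : ∀ i, mp (evp (a i)) x ∈ aug ℝ ^ 3) : x ∈ Good a := by
  have key : ∀ j k : ℕ, Fintype.card A + 1 ≤ k + 3 + j → ∀ x : QA (Pat d),
      (∀ i, mp (evp (a i)) x ∈ aug ℝ ^ (k + 3)) → x ∈ Good a := by
    intro j
    induction j with
    | zero =>
      intro k hk x hx
      exact good_of_deep a ha fun i => Ideal.pow_le_pow_right hk (hx i)
    | succ j ih =>
      intro k hk x hx
      exact good_step a k (ih (k + 1) (by omega)) hx
  exact key (Fintype.card A) 0 (by omega) x hx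

end Vale.Agent.P058
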