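import Vale.Agent.P058.Five

/-! A cyclic kite that is not subtransitive. -/

namespace Vale.Agent.P058

theorem kite_rel {n : ℕ} {a : ℝ} {x y z w : EuclideanSpace ℝ (Fin n)}
    (h1 : dist x y ^ 2 = 4) (h2 : dist x z ^ 2 = 2 - 2 * a) (h3 : dist x w ^ 2 = 2 - 2 * a)
    (h4 : dist y z ^ 2 = 2 + 2 * a) (h5 : dist y w ^ 2 = 2 + 2 * a)
    (h6 : dist z w ^ 2 = 4 * (1 - a ^ 2)) (j : Fin n) :
    z j + w j = (1 + a) * x j + (1 - a) * y j := by
  rw [← dist_sq_eq] at h1 h2 h3 h4 h5 h6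
  have e : ∑ j, (z j + w j - ((1 + a) * x j + (1 - a) * y j)) ^ 2 = 0 := by
    have : ∀ j, (z j + w j - ((1 + a) * x j + (1 - a) * y j)) ^ 2 =
        -((1 - a ^ 2) * (x j - y j) ^ 2) + (1 + a) * (x j - z j) ^ 2 + (1 + a) * (x j - w j) ^ 2 +
          (1 - a) * (y j - z j) ^ 2 + (1 - a) * (y j - w j) ^ 2 - (z j - w j) ^ 2 := by
      intro j
      ring
    simp only [this, Finset.sum_sub_distrib, Finset.sum_add_distrib, Finset.sum_neg_distrib,
      ← Finset.mul_sum]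
    rw [h1, h2, h3, h4, h5, h6]
    ring
  have := (Finset.sum_eq_zero_iff_of_nonneg fun j _ => sq_nonneg _).1 e j (Finset.mem_univ _)
  exact sub_eq_zero.1 (pow_eq_zero_iff two_ne_zero |>.1 this)

theorem exists_conj (s₀ : ℝ) (hs : s₀ ≠ 0) : ∃ l : ℝ →+ ℝ, l s₀ ≠ 0 ∧
    ∀ s, l (√2 * s) = -√2 * l s := by
  obtain ⟨φ, -, hφ⟩ := LinearMap.exists_extend_of_notMem (0 : (⊥ : Submodule ℚ ℝ) →ₗ[ℚ] ℚ)
    (v := s₀) (by simpa using hs) 1
  have h2 : √2 * √2 = (2 : ℝ) := Real.mul_self_sqrt (by norm_num)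
  refine ⟨AddMonoidHom.mk' (fun s => (φ (√2 * s) : ℝ) - √2 * φ s) fun s t => ?_, ?_, fun s => ?_⟩
  · simp only [mul_add, map_add]
    push_cast
    ring
  · simp only [AddMonoidHom.mk'_apply, hφ, Rat.cast_one, mul_one]
    intro h
    exact irrational_sqrt_two ⟨_, sub_eq_zero.1 h⟩
  · simp only [AddMonoidHom.mk'_apply]
    have : φ (√2 * (√2 * s)) = 2 * φ s := by
      rw [← mul_assoc, h2, two_mul, map_add, two_mul]
    rw [this]
    push_cast
    linear_combination (-(φ s : ℝ)) * h2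

theorem no_kite {n : ℕ} {X : Set (EuclideanSpace ℝ (Fin n))} (hfin : X.Finite)
    (hX : IsTransitiveSet X) (x y z w : X)
    (h1 : dist x y ^ 2 = 4) (h2 : dist x z ^ 2 = 2 - 2 * (√2 - 1))
    (h3 : dist x w ^ 2 = 2 - 2 * (√2 - 1))
    (h4 : dist y z ^ 2 = 2 + 2 * (√2 - 1)) (h5 : dist y w ^ 2 = 2 + 2 * (√2 - 1))
    (h6 : dist z w ^ 2 = 4 * (1 - (√2 - 1) ^ 2)) : False := by
  classical
  have := hfin.fintype
  let H : Subgroup (Equiv.Perm X) :=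
    { carrier := {σ | ∀ a b, dist (σ a) (σ b) = dist a b}
      one_mem' := fun _ _ => rfl
      mul_mem' := by
        intro a b ha hb y y'
        rw [Equiv.Perm.mul_apply, Equiv.Perm.mul_apply, ha, hb]
      inv_mem' := by
        intro a ha y y'
        rw [← ha]
        simp }
  have hxy : x.1 ≠ y.1 := by
    intro h
    rw [Subtype.ext h, dist_self] at h1
    norm_num at h1
  obtain ⟨j, hj⟩ : ∃ j, x.1 j ≠ y.1 j := by
    by_contra hcon
    push Not at hcon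
    exact hxy (PiLp.ext hcon)
  obtain ⟨l, hl0, hl⟩ := exists_conj _ (sub_ne_zero.2 hj)
  let F : X → H → ℝ := fun u σ => l ((σ.1 u).1 j)
  have hsum : ∀ u v : X, ∑ σ : H, F u σ ^ 2 = ∑ σ : H, F v σ ^ 2 := by
    intro u v
    obtain ⟨τ, hτ, rfl⟩ := exists_perm hX u v
    exact (Equiv.sum_comp (Equiv.mulRight (⟨τ, hτ⟩ : H)) fun σ => F u σ ^ 2).symm
  have hrel : ∀ σ : H, F z σ + F w σ = -√2 * F x σ + (2 + √2) * F y σ := by
    intro σ
    have := kite_rel (a := √2 - 1) (x := (σ.1 x).1) (y := (σ.1 y).1) (z := (σ.1 z).1)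
      (w := (σ.1 w).1) ((congrArg (· ^ 2) (σ.2 x y)).trans h1)
      ((congrArg (· ^ 2) (σ.2 x z)).trans h2) ((congrArg (· ^ 2) (σ.2 x w)).trans h3)
      ((congrArg (· ^ 2) (σ.2 y z)).trans h4) ((congrArg (· ^ 2) (σ.2 y w)).trans h5)
      ((congrArg (· ^ 2) (σ.2 z w)).trans h6) j
    have e : (1 + (√2 - 1)) * (σ.1 x).1 j + (1 - (√2 - 1)) * (σ.1 y).1 j =
        √2 * (σ.1 x).1 j + ((σ.1 y).1 j + (σ.1 y).1 j - √2 * (σ.1 y).1 j) := by ring
    have h7 := congrArg l (this.trans e)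
    simp only [map_add, map_sub, hl] at h7
    simp only [F]
    linarith
  have h2' : √2 * √2 = (2 : ℝ) := Real.mul_self_sqrt (by norm_num)
  have h0 : (0 : ℝ) ≤ √2 := Real.sqrt_nonneg 2
  have key : ∀ σ : H, (2 + 2 * √2) * (F x σ - F y σ) ^ 2 ≤
      2 * F z σ ^ 2 + 2 * F w σ ^ 2 + (2 * √2) * F x σ ^ 2 - (4 + 2 * √2) * F y σ ^ 2 := by
    intro σ
    have e1 : (F z σ + F w σ) ^ 2 ≤ 2 * F z σ ^ 2 + 2 * F w σ ^ 2 := by
      nlinarith [sq_nonneg (F z σ - F w σ)]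
    rw [hrel] at e1
    have e2 : (-√2 * F x σ + (2 + √2) * F y σ) ^ 2 = (2 + 2 * √2) * (F x σ - F y σ) ^ 2 -
        (2 * √2) * F x σ ^ 2 + (4 + 2 * √2) * F y σ ^ 2 := by
      linear_combination (F x σ - F y σ) ^ 2 * h2'
    linarith
  have tot := Finset.sum_le_sum fun σ (_ : σ ∈ (Finset.univ : Finset H)) => key σ
  simp only [Finset.sum_sub_distrib, Finset.sum_add_distrib, ← Finset.mul_sum] at tot
  rw [hsum z x, hsum w x, hsum y x] at tot
  have h8 : (F x 1 - F y 1) ^ 2 ≤ ∑ σ : H, (F x σ - F y σ) ^ 2 :=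
    Finset.single_le_sum (f := fun σ => (F x σ - F y σ) ^ 2) (fun _ _ => sq_nonneg _)
      (Finset.mem_univ _)
  have h9 : 0 < (F x 1 - F y 1) ^ 2 := by
    have : F x 1 - F y 1 ≠ 0 := by
      rw [map_sub] at hl0
      exact hl0
    positivity
  nlinarith

theorem exists_kite : ∃ A : Set (EuclideanSpace ℝ (Fin 2)), A.Finite ∧ A.ncard = 4 ∧
    A ⊆ Metric.sphere 0 1 ∧ IsRamsey A ∧ ¬ IsSubtransitive A := by
  have h2' : √2 * √2 = (2 : ℝ) := Real.mul_self_sqrt (by norm_num)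
  have h0 : (1 : ℝ) < √2 := by
    rw [Real.lt_sqrt (by norm_num)]
    norm_num
  have h0' : √2 < (3 / 2 : ℝ) := by
    rw [Real.sqrt_lt' (by norm_num)]
    norm_num
  obtain ⟨b, hb0, hb⟩ : ∃ b : ℝ, 0 < b ∧ b ^ 2 = 1 - (√2 - 1) ^ 2 :=
    ⟨√(1 - (√2 - 1) ^ 2), Real.sqrt_pos.2 (by nlinarith), Real.sq_sqrt (by nlinarith)⟩
  let x : EuclideanSpace ℝ (Fin 2) := !₂[1, 0]
  let y : EuclideanSpace ℝ (Fin 2) := !₂[-1, 0]
  let z : EuclideanSpace ℝ (Fin 2) := !₂[√2 - 1, b]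
  let w : EuclideanSpace ℝ (Fin 2) := !₂[√2 - 1, -b]
  have h1 : dist x y ^ 2 = 4 := by
    rw [← dist_sq_eq]; simp [x, y]; norm_num
  have h2 : dist x z ^ 2 = 2 - 2 * (√2 - 1) := by
    rw [← dist_sq_eq]; simp [x, z]; linear_combination hb
  have h3 : dist x w ^ 2 = 2 - 2 * (√2 - 1) := by
    rw [← dist_sq_eq]; simp [x, w]; linear_combination hb
  have h4 : dist y z ^ 2 = 2 + 2 * (√2 - 1) := by
    rw [← dist_sq_eq]; simp [y, z]; linear_combination hb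
  have h5 : dist y w ^ 2 = 2 + 2 * (√2 - 1) := by
    rw [← dist_sq_eq]; simp [y, w]; linear_combination hb
  have h6 : dist z w ^ 2 = 4 * (1 - (√2 - 1) ^ 2) := by
    rw [← dist_sq_eq]; simp [z, w]; linear_combination 4 * hb
  have ne : ∀ {u v : EuclideanSpace ℝ (Fin 2)} {r : ℝ}, dist u v ^ 2 = r → 0 < r → u ≠ v := by
    rintro u v r h hr rfl
    simp at h
    linarith
  have hcard : ({x, y, z, w} : Set (EuclideanSpace ℝ (Fin 2))).ncard = 4 :=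
    Set.ncard_eq_four.2 ⟨x, y, z, w, ne h1 (by norm_num), ne h2 (by linarith),
      ne h3 (by linarith), ne h4 (by linarith), ne h5 (by linarith), ne h6 (by nlinarith), rfl⟩
  have hsph : ({x, y, z, w} : Set (EuclideanSpace ℝ (Fin 2))) ⊆ Metric.sphere 0 1 := by
    have : ∀ u : EuclideanSpace ℝ (Fin 2), u 0 ^ 2 + u 1 ^ 2 = 1 → u ∈ Metric.sphere 0 1 := by
      intro u hu
      rw [mem_sphere_zero_iff_norm, EuclideanSpace.norm_eq]
      simp [hu]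
    rintro u (rfl | rfl | rfl | rfl)
    · apply this; simp [x]
    · apply this; simp [y]
    · apply this; simp [z]; linear_combination hb
    · apply this; simp [w]; linear_combination hb
  refine ⟨{x, y, z, w}, Set.toFinite _, hcard, hsph,
    ramsey_of_five _ (Set.toFinite _) (by simp) (by omega) 0 1 hsph, ?_⟩
  rintro ⟨n, X, hfin, hX, φ, hφ, hφX⟩
  let x' : ({x, y, z, w} : Set (EuclideanSpace ℝ (Fin 2))) := ⟨x, by simp⟩
  let y' : ({x, y, z, w} : Set (EuclideanSpace ℝ (Fin 2))) := ⟨y, by simp⟩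
  let z' : ({x, y, z, w} : Set (EuclideanSpace ℝ (Fin 2))) := ⟨z, by simp⟩
  let w' : ({x, y, z, w} : Set (EuclideanSpace ℝ (Fin 2))) := ⟨w, by simp⟩
  exact no_kite hfin hX ⟨φ x', hφX _⟩ ⟨φ y', hφX _⟩ ⟨φ z', hφX _⟩ ⟨φ w', hφX _⟩
    ((congrArg (· ^ 2) (hφ x' y')).trans h1) ((congrArg (· ^ 2) (hφ x' z')).trans h2)
    ((congrArg (· ^ 2) (hφ x' w')).trans h3) ((congrArg (· ^ 2) (hφ y' z')).trans h4)
    ((congrArg (· ^ 2) (hφ y' w')).trans h5) ((congrArg (· ^ 2) (hφ z' w')).trans h6)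

end Vale.Agent.P058
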