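import Vale.Agent.P058.Ultra

/-! Weighted fixed-degree lines for a finite group acting on a finite set; Euclidean form. -/

namespace Vale.Agent.P058

variable {G Y : Type} [Group G] [MulAction G Y]

/-- A letter of a variable word evaluated at `y`. -/
def ev (a : Y ⊕ G) (y : Y) : Y := a.elim id (· • y)

/-- Indicator of a variable letter. -/
def act {A B : Type} (a : A ⊕ B) : ℝ := a.elim (fun _ => 0) (fun _ => 1)

@[simp] theorem act_inl {A B : Type} (a : A) : act (Sum.inl a : A ⊕ B) = 0 := rfl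

@[simp] theorem act_inr {A B : Type} (a : B) : act (Sum.inr a : A ⊕ B) = 1 := rfl

/-- Weighted line Ramsey property of a relation. -/
def LR (G : Type) {Y : Type} [Group G] [MulAction G Y] (E : Y → Y → Prop) : Prop :=
  ∀ (κ : Type) [Finite κ], ∃ (ι : Type) (_ : Fintype ι) (ω : ι → ℝ), (∀ i, 0 ≤ ω i) ∧
    ∀ c : (ι → Y) → κ, ∃ ℓ : ι → Y ⊕ G, (∑ i, act (ℓ i) * ω i) = 1 ∧
      ∀ y y', E y y' → c (fun i => ev (ℓ i) y) = c (fun i => ev (ℓ i) y')

/-- Product form of `LR`. -/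
def PL (G : Type) {Y : Type} [Group G] [MulAction G Y] (E : Y → Y → Prop) (D : Type) : Prop :=
  ∀ (κ : Type) [Finite κ], ∃ (ι : Type) (_ : Fintype ι) (blk : ι → D) (ω : ι → ℝ),
    (∀ i, 0 ≤ ω i) ∧ ∀ c : (ι → Y) → κ, ∃ ℓ : ι → Y ⊕ G,
      (∀ f : D → ℝ, ∀ _ : Fintype D,
        (∑ i, act (ℓ i) * (f (blk i) * ω i)) = ∑ j, f j) ∧
      ∀ w w' : D → Y, (∀ j, E (w j) (w' j)) →
        c (fun i => ev (ℓ i) (w (blk i))) = c (fun i => ev (ℓ i) (w' (blk i)))

theorem LR.mono {E E' : Y → Y → Prop} (h : LR G E) (hE : ∀ y y', E' y y' → E y y') :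
    LR G E' := by
  intro κ _
  obtain ⟨ι, _, ω, hω, h⟩ := h κ
  refine ⟨ι, inferInstance, ω, hω, fun c => ?_⟩
  obtain ⟨ℓ, h1, h2⟩ := h c
  exact ⟨ℓ, h1, fun y y' hy => h2 y y' (hE y y' hy)⟩

theorem LR_eq : LR G (fun y y' : Y => y = y') := by
  intro κ _
  refine ⟨Unit, inferInstance, fun _ => 1, fun _ => zero_le_one, fun c => ⟨fun _ => Sum.inr 1,
    by simp, ?_⟩⟩
  rintro y _ rfl
  rfl

theorem LR_orbit [Finite G] (y₀ : Y) :
    LR G (fun y y' : Y => ∃ g g' : G, y = g • y₀ ∧ y' = g' • y₀) := by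
  intro κ _
  obtain ⟨n, L, hL, h⟩ := fixed_degree G κ
  refine ⟨Fin n, inferInstance, fun _ => (L : ℝ)⁻¹, fun _ => by positivity, fun c => ?_⟩
  obtain ⟨ℓ, h1, h2⟩ := h fun w => c fun i => w i • y₀
  refine ⟨fun i => (ℓ i).elim (fun g => Sum.inl (g • y₀)) Sum.inr, ?_, ?_⟩
  · have h3 : (∑ i, act (ℓ i)) = L := by
      rw [← h1, Nat.cast_sum]
      apply Finset.sum_congr rfl
      intro i _
      cases ℓ i <;> simp
    have h4 : (L : ℝ) ≠ 0 := by positivity
    rw [← mul_inv_cancel₀ h4, ← congrArg (· * (L : ℝ)⁻¹) h3, Finset.sum_mul]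
    apply Finset.sum_congr rfl
    intro i _
    beta_reduce
    cases ℓ i <;> simp
  · rintro _ _ ⟨g, g', rfl, rfl⟩
    have key : ∀ g : G, (fun i => ev ((ℓ i).elim (fun g => Sum.inl (g • y₀)) Sum.inr) (g • y₀)) =
        fun i => ((ℓ i).elim id (· * g)) • y₀ := by
      intro g
      funext i
      cases ℓ i <;> simp [ev, mul_smul]
    rw [key, key]
    exact h2 g g'

theorem PL_of_LR [Finite Y] {E : Y → Y → Prop} (h : LR G E) (D : Type) [Finite D] : PL G E D := by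
  induction D using Finite.induction_empty_option with
  | @of_equiv D D' e ih =>
    intro κ _
    obtain ⟨ι, _, blk, ω, hω, h⟩ := ih κ
    refine ⟨ι, inferInstance, fun i => e (blk i), ω, hω, fun c => ?_⟩
    obtain ⟨ℓ, h1, h2⟩ := h c
    refine ⟨ℓ, fun f _ => ?_, fun w w' hw => h2 (fun j => w (e j)) (fun j => w' (e j))
      fun j => hw _⟩
    let _ : Fintype D := Fintype.ofEquiv D' e.symm
    rw [h1 (fun j => f (e j)) inferInstance, Equiv.sum_comp e f]
  | h_empty =>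
    intro κ _
    refine ⟨PEmpty, inferInstance, id, fun _ => 0, fun _ => le_rfl, fun c => ⟨fun i => i.elim,
      fun f _ => by simp, fun w w' _ => ?_⟩⟩
    congr 1
    funext i
    exact i.elim
  | @h_option D _ ih =>
    intro κ _
    obtain ⟨ι₁, _, blk, ω₁, hω₁, h₁⟩ := ih (Y → κ)
    obtain ⟨ι₀, _, ω₀, hω₀, h₀⟩ := h ((ι₁ → Y) → κ)
    refine ⟨ι₀ ⊕ ι₁, inferInstance, Sum.elim (fun _ => none) (fun i => some (blk i)),
      Sum.elim ω₀ ω₁, by rintro (i | i) <;> simp [hω₀, hω₁], fun c => ?_⟩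
    obtain ⟨ℓ₀, a0, b0⟩ := h₀ fun w₀ w₁ => c (Sum.elim w₀ w₁)
    obtain ⟨ℓ₁, a1, b1⟩ := h₁ fun w₁ y => c (Sum.elim (fun i => ev (ℓ₀ i) y) w₁)
    refine ⟨Sum.elim ℓ₀ ℓ₁, fun f inst => ?_, fun w w' hw => ?_⟩
    · have : inst = instFintypeOption := Subsingleton.elim _ _
      subst this
      rw [Fintype.sum_sum_type, Fintype.sum_option]
      simp only [Sum.elim_inl, Sum.elim_inr]
      rw [a1 (fun j => f (some j)) inferInstance]
      congr 1
      conv_rhs => rw [← mul_one (f none), ← a0, Finset.mul_sum]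
      apply Finset.sum_congr rfl
      intro i _
      ring
    · have key : ∀ w : Option D → Y, (fun i => ev (Sum.elim ℓ₀ ℓ₁ i)
          (w (Sum.elim (fun _ => none) (fun i => some (blk i)) i))) =
          Sum.elim (fun i => ev (ℓ₀ i) (w none)) (fun i => ev (ℓ₁ i) (w (some (blk i)))) := by
        intro w
        funext i
        cases i <;> rfl
      rw [key, key]
      have e1 := congrFun (b1 (fun j => w (some j)) (fun j => w' (some j)) fun j => hw _) (w none)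
      have e2 := congrFun (b0 (w none) (w' none) (hw none))
        (fun i => ev (ℓ₁ i) (w' (some (blk i))))
      exact e1.trans e2

theorem LR.union [Finite Y] {E₁ E₂ : Y → Y → Prop} (h₁ : LR G E₁) (h₂ : LR G E₂)
    (hrefl : ∀ y, E₁ y y) (hinv : ∀ (g : G) y y', E₁ y y' → E₁ (g • y) (g • y')) :
    LR G (fun y y' => E₁ y y' ∨ E₂ y y') := by
  intro κ _
  obtain ⟨D, _, ω₂, hω₂, h₂⟩ := h₂ κ
  obtain ⟨ι, _, blk, ω₁, hω₁, h₁⟩ := PL_of_LR h₁ D κ
  refine ⟨ι, inferInstance, fun i => ω₂ (blk i) * ω₁ i, fun i => mul_nonneg (hω₂ _) (hω₁ _),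
    fun c => ?_⟩
  obtain ⟨ℓ₁, a1, b1⟩ := h₁ c
  obtain ⟨ℓ₂, a2, b2⟩ := h₂ fun w => c fun i => ev (ℓ₁ i) (w (blk i))
  let ℓ : ι → Y ⊕ G := fun i => (ℓ₁ i).elim Sum.inl
    (fun g => (ℓ₂ (blk i)).elim (fun y => Sum.inl (g • y)) (fun g' => Sum.inr (g * g')))
  have key : ∀ y, (fun i => ev (ℓ i) y) = fun i => ev (ℓ₁ i) (ev (ℓ₂ (blk i)) y) := by
    intro y
    funext i
    simp only [ℓ]
    cases ℓ₁ i with
    | inl a => rfl
    | inr g => cases ℓ₂ (blk i) <;> simp [ev, mul_smul]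
  refine ⟨ℓ, ?_, ?_⟩
  · rw [← a2, ← a1 (fun j => act (ℓ₂ j) * ω₂ j) inferInstance]
    apply Finset.sum_congr rfl
    intro i _
    simp only [ℓ]
    cases ℓ₁ i with
    | inl a => simp
    | inr g => cases ℓ₂ (blk i) <;> simp
  · rintro y y' (hy | hy)
    · rw [key, key]
      apply b1 (fun j => ev (ℓ₂ j) y) (fun j => ev (ℓ₂ j) y')
      intro j
      cases ℓ₂ j with
      | inl a => exact hrefl _
      | inr g => exact hinv g y y' hy
    · rw [key, key]
      exact b2 y y' hy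

theorem LR_all [Finite G] [Finite Y] : LR G (fun y y' : Y => ∃ g : G, y' = g • y) := by
  classical
  have key : ∀ S : Finset Y, LR G (fun y y' : Y => y = y' ∨
      ∃ y₀ ∈ S, ∃ g g' : G, y = g • y₀ ∧ y' = g' • y₀) := by
    intro S
    induction S using Finset.induction_on with
    | empty => exact LR_eq.mono (by simp)
    | insert a S _ ih =>
      refine (ih.union (LR_orbit a) (fun y => Or.inl rfl) ?_).mono ?_
      · rintro g y y' (rfl | ⟨y₀, hy₀, h, h', rfl, rfl⟩)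
        · exact Or.inl rfl
        · exact Or.inr ⟨y₀, hy₀, g * h, g * h', by rw [mul_smul], by rw [mul_smul]⟩
      · rintro y y' (rfl | ⟨y₀, hy₀, h, h', rfl, rfl⟩)
        · exact Or.inl (Or.inl rfl)
        · rcases Finset.mem_insert.1 hy₀ with rfl | hy₀
          · exact Or.inr ⟨h, h', rfl, rfl⟩
          · exact Or.inl (Or.inr ⟨y₀, hy₀, h, h', rfl, rfl⟩)
  have := Fintype.ofFinite Y
  refine (key Finset.univ).mono ?_
  rintro y _ ⟨g, rfl⟩
  exact Or.inr ⟨y, Finset.mem_univ _, 1, g, by simp, rfl⟩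

theorem exists_emb (K : Type) [Fintype K] : ∃ D : ℕ, 1 ≤ D ∧
    ∃ emb : (K → ℝ) → EuclideanSpace ℝ (Fin D),
      ∀ u v, dist (emb u) (emb v) = √(∑ k, (u k - v k) ^ 2) := by
  obtain ⟨D, hD, ⟨e⟩⟩ : ∃ D : ℕ, 1 ≤ D ∧ Nonempty (Option K ≃ Fin D) :=
    ⟨Fintype.card (Option K), by simp, ⟨Fintype.equivFin _⟩⟩
  refine ⟨D, hD, fun u => WithLp.toLp 2 fun k => (e.symm k).elim 0 u, fun u v => ?_⟩
  rw [EuclideanSpace.dist_eq]
  congr 1
  rw [← Equiv.sum_comp e, Fintype.sum_option]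
  simp [Real.dist_eq]

/-- Euclidean form: every finite configuration has a congruent copy on which the colour is
constant along the orbits of its distance-preserving permutations. -/
theorem euclid {Y J : Type} [Finite Y] [Fintype J] (f : Y → J → ℝ) (κ : Type) [Finite κ] :
    ∃ D : ℕ, 1 ≤ D ∧ ∀ c : EuclideanSpace ℝ (Fin D) → κ, ∃ ψ : Y → EuclideanSpace ℝ (Fin D),
      (∀ y y', dist (ψ y) (ψ y') = √(∑ j, (f y j - f y' j) ^ 2)) ∧
      ∀ σ : Equiv.Perm Y, (∀ y y', ∑ j, (f (σ y) j - f (σ y') j) ^ 2 =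
        ∑ j, (f y j - f y' j) ^ 2) → ∀ y, c (ψ (σ y)) = c (ψ y) := by
  classical
  let H : Subgroup (Equiv.Perm Y) :=
    { carrier := {σ | ∀ y y', ∑ j, (f (σ y) j - f (σ y') j) ^ 2 = ∑ j, (f y j - f y' j) ^ 2}
      one_mem' := fun _ _ => rfl
      mul_mem' := by
        intro a b ha hb y y'
        rw [Equiv.Perm.mul_apply, Equiv.Perm.mul_apply, ha, hb]
      inv_mem' := by
        intro a ha y y'
        rw [← ha]
        simp }
  obtain ⟨ι, _, ω, hω, h⟩ := LR_all (G := H) (Y := Y) κ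
  obtain ⟨D, hD, emb₀, hemb₀⟩ := exists_emb (ι × J)
  let emb : (ι → Y) → EuclideanSpace ℝ (Fin D) := fun w =>
    emb₀ fun q => √(ω q.1) * f (w q.1) q.2
  have hemb : ∀ w w', dist (emb w) (emb w') =
      √(∑ i, ω i * ∑ j, (f (w i) j - f (w' i) j) ^ 2) := by
    intro w w'
    simp only [emb]
    rw [hemb₀, Fintype.sum_prod_type]
    congr 1
    apply Finset.sum_congr rfl
    intro i _
    rw [Finset.mul_sum]
    apply Finset.sum_congr rfl
    intro j _
    rw [← mul_sub, mul_pow, Real.sq_sqrt (hω i)]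
  refine ⟨D, hD, fun c => ?_⟩
  obtain ⟨ℓ, h1, h2⟩ := h fun w => c (emb w)
  refine ⟨fun y => emb fun i => ev (ℓ i) y, fun y y' => ?_, fun σ hσ y => ?_⟩
  · refine (hemb (fun i => ev (ℓ i) y) (fun i => ev (ℓ i) y')).trans ?_
    congr 1
    rw [← one_mul (∑ j, (f y j - f y' j) ^ 2), ← h1, Finset.sum_mul]
    apply Finset.sum_congr rfl
    intro i _
    cases ℓ i with
    | inl a => simp [ev]
    | inr g =>
      simp only [ev, Sum.elim_inr, act_inr, one_mul]
      congr 1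
      exact g.2 y y'
  · exact (h2 y (σ y) ⟨⟨σ, hσ⟩, rfl⟩).symm

end Vale.Agent.P058
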