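import Vale.Agent.P058.LR
import Vale.Agent.P058.Defs

/-! Subtransitive sets are Ramsey. -/

namespace Vale.Agent.P058

theorem dist_sq_eq {n : ℕ} (x y : EuclideanSpace ℝ (Fin n)) :
    ∑ j, (x j - y j) ^ 2 = dist x y ^ 2 := by
  rw [EuclideanSpace.dist_eq, Real.sq_sqrt (Finset.sum_nonneg fun _ _ => sq_nonneg _)]
  simp only [Real.dist_eq, sq_abs]

/-- An isometry of the ambient space that preserves `X` restricts to a permutation of `X`. -/
theorem exists_perm {n : ℕ} {X : Set (EuclideanSpace ℝ (Fin n))} (hX : IsTransitiveSet X)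
    (x y : X) : ∃ σ : Equiv.Perm X, (∀ a b, dist (σ a) (σ b) = dist a b) ∧ σ x = y := by
  obtain ⟨f, hf, hxy⟩ := hX x x.2 y y.2
  have hb : Set.BijOn f X X := by
    have := f.toEquiv.injective.injOn.bijOn_image (s := X)
    change Set.BijOn f X (f '' X) at this
    rwa [hf] at this
  refine ⟨hb.equiv f, fun a b => ?_, Subtype.ext hxy⟩
  exact f.dist_eq a b

theorem ramsey_of_subtransitive {d : ℕ} (A : Set (EuclideanSpace ℝ (Fin d)))
    (hA : IsSubtransitive A) : IsRamsey A := by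
  obtain ⟨n, X, hfin, hX, φ, hφ, hφX⟩ := hA
  intro r _
  have : Finite X := hfin
  obtain ⟨D, hD, h⟩ := euclid (Y := X) (fun x j => x.1 j) (Fin r)
  refine ⟨D, hD, fun c => ?_⟩
  obtain ⟨ψ, h1, h2⟩ := h c
  refine ⟨fun a => ψ ⟨φ a, hφX a⟩, fun a b => ?_, fun a b => ?_⟩
  · rw [h1, dist_sq_eq, Real.sqrt_sq dist_nonneg]
    exact hφ a b
  · obtain ⟨σ, hσ, hab⟩ := exists_perm hX ⟨φ b, hφX b⟩ ⟨φ a, hφX a⟩
    beta_reduce
    rw [← hab]
    apply h2
    intro y y'
    rw [dist_sq_eq, dist_sq_eq]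
    congr 1
    exact hσ y y'

end Vale.Agent.P058
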