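import Vale.Agent.P058.Bil
import Vale.Agent.P058.LR

/-! Sufficiency of the tensor criterion. -/

namespace Vale.Agent.P058

variable {d : ℕ} {A : Type} (a : A → Fin d → ℝ)

theorem Qf_smul (v : Fin d → ℝ) (r : ℝ) (s : Multiset (Pat d)) :
    Qf v (s.map (r • ·)) = r ^ 2 * Qf v s := by
  simp only [Qf_apply, Multiset.map_map, Function.comp_def, ← Multiset.sum_map_mul_left]
  congr 2
  funext π
  simp only [Prod.smul_snd, Pi.smul_apply, smul_eq_mul, mul_assoc, ← Finset.mul_sum, mul_pow]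

theorem letters_smul (b : Fin d → ℝ) (r : ℝ) {s t : Multiset (Pat d)}
    (h : s.map (evp b) = t.map (evp b)) :
    (s.map (r • ·)).map (evp b) = (t.map (r • ·)).map (evp b) := by
  have key : ∀ s : Multiset (Pat d),
      (s.map (r • ·)).map (evp b) = (s.map (evp b)).map (r * ·) := by
    intro s
    simp only [Multiset.map_map, Function.comp_def, evp_smul]
  rw [key, key, h]

theorem exists_pad_one (β : Fin d → ℝ) : ∃ u : Multiset (Pat d), ∀ v,
    Qf v u = (∑ k, β k ^ 2) * (∑ k, v k ^ 2) - (∑ k, β k * v k) ^ 2 := by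
  refine ⟨Multiset.map ((√2)⁻¹ • ·)
    (∑ k, ∑ l, {((0, β k • Pi.single l 1 - β l • Pi.single k 1) : Pat d)}), fun v => ?_⟩
  rw [Qf_smul, inv_pow, Real.sq_sqrt (by norm_num)]
  simp only [map_sum]
  have h1 : ∀ k l, Qf v {((0, β k • Pi.single l 1 - β l • Pi.single k 1) : Pat d)} =
      (β k * v l - β l * v k) ^ 2 := by
    intro k l
    simp [Qf_apply, Pi.single_apply, sub_mul, Finset.sum_sub_distrib]
  simp only [h1]
  have h2 : ∀ k l, (β k * v l - β l * v k) ^ 2 =
      β k ^ 2 * v l ^ 2 + v k ^ 2 * β l ^ 2 - 2 * ((β k * v k) * (β l * v l)) := by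
    intro k l
    ring
  simp only [h2, Finset.sum_sub_distrib, Finset.sum_add_distrib, ← Finset.mul_sum,
    ← Finset.sum_mul]
  ring

theorem exists_pad (t : Multiset (Pat d)) : ∃ u : Multiset (Pat d), ∀ v,
    Qf v t + Qf v u = (t.map fun π => ∑ k, π.2 k ^ 2).sum * ∑ k, v k ^ 2 := by
  induction t using Multiset.induction_on with
  | empty => exact ⟨0, by simp⟩
  | cons π t ih =>
    obtain ⟨u, hu⟩ := ih
    obtain ⟨u', hu'⟩ := exists_pad_one π.2
    refine ⟨u + u', fun v => ?_⟩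
    rw [Multiset.map_cons, Multiset.sum_cons, add_mul, ← hu, map_add, hu', Qf_apply v (π ::ₘ t),
      Multiset.map_cons, Multiset.sum_cons, ← Qf_apply]
    ring

theorem exists_id (c : ℝ) (hc : 0 ≤ c) : ∃ u : Multiset (Pat d), ∀ v,
    Qf v u = c * ∑ k, v k ^ 2 := by
  refine ⟨Multiset.map (√c • ·) (∑ k, {((0, Pi.single k 1) : Pat d)}), fun v => ?_⟩
  rw [Qf_smul, Real.sq_sqrt hc]
  simp only [map_sum]
  congr 1
  apply Finset.sum_congr rfl
  intro k _
  simp [Qf_apply, Pi.single_apply]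

theorem exists_scalar [Fintype A] (ha : Function.Injective a) (h : CritR a) (η : ℝ)
    (hη : 0 < η) : ∃ (s t : Multiset (Pat d)) (τ : ℝ), 0 ≤ τ ∧ τ ≤ η ∧
      (∀ i, s.map (evp (a i)) = t.map (evp (a i))) ∧
      (∀ v, Qf v s = (1 + τ) * ∑ k, v k ^ 2) ∧ (∀ v, Qf v t = τ * ∑ k, v k ^ 2) := by
  obtain ⟨s, t, c, hc, h1, h2, h3⟩ := exists_multisets a ha h η hη
  obtain ⟨u, hu⟩ := exists_pad t
  have h0 : 0 ≤ (t.map fun π => ∑ k, π.2 k ^ 2).sum :=
    Multiset.sum_nonneg (by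
      intro x hx
      obtain ⟨π, _, rfl⟩ := Multiset.mem_map.1 hx
      positivity)
  generalize (t.map fun π => ∑ k, π.2 k ^ 2).sum = T at h0 h3 hu
  refine ⟨(s + u).map ((√c)⁻¹ • ·), (t + u).map ((√c)⁻¹ • ·), T / c, by positivity, ?_,
    fun i => letters_smul _ _ (by rw [Multiset.map_add, Multiset.map_add, h1]), fun v => ?_,
    fun v => ?_⟩
  · rw [div_le_iff₀ hc]
    linarith
  · rw [Qf_smul, inv_pow, Real.sq_sqrt hc.le, map_add, h2, add_right_comm, hu]
    field_simp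
    ring
  · rw [Qf_smul, inv_pow, Real.sq_sqrt hc.le, map_add, hu]
    field_simp

theorem exists_family [Fintype A] (ha : Function.Injective a) (h : CritR a) (M : ℕ) :
    ∃ f : ℕ → Multiset (Pat d), (∀ m i, (f m).map (evp (a i)) = (f 0).map (evp (a i))) ∧
      ∀ m, 1 ≤ m → m ≤ M → ∀ v, Qf v (f m) = (m : ℝ)⁻¹ * ∑ k, v k ^ 2 := by
  rcases Nat.eq_zero_or_pos M with rfl | hM
  · exact ⟨fun _ => 0, by simp, fun m h1 h2 => by omega⟩
  have hM' : (0 : ℝ) < M := by exact_mod_cast hM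
  obtain ⟨s, t, τ, h0, h1, h2, h3, h4⟩ := exists_scalar a ha h ((M : ℝ)⁻¹ ^ 2) (by positivity)
  let w : ℕ → ℝ := fun j => (j : ℝ)⁻¹ - (M : ℝ)⁻¹
  have hw : ∀ j ∈ Finset.Icc 1 M, 0 ≤ w j ∧ w j ≤ 1 := by
    intro j hj
    obtain ⟨hj1, hj2⟩ := Finset.mem_Icc.1 hj
    have hj1' : (1 : ℝ) ≤ j := by exact_mod_cast hj1
    have hj2' : (j : ℝ) ≤ M := by exact_mod_cast hj2
    have e1 : (M : ℝ)⁻¹ ≤ (j : ℝ)⁻¹ := inv_anti₀ (by linarith) hj2'
    have e2 : (j : ℝ)⁻¹ ≤ 1 := inv_le_one_of_one_le₀ hj1'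
    have e3 : 0 ≤ (M : ℝ)⁻¹ := by positivity
    exact ⟨by simp only [w]; linarith, by simp only [w]; linarith⟩
  have hS : ∑ j ∈ Finset.Icc 1 M, w j ≤ M := by
    have := Finset.sum_le_card_nsmul (Finset.Icc 1 M) w 1 fun j hj => (hw j hj).2
    simpa using this
  have hS0 : 0 ≤ ∑ j ∈ Finset.Icc 1 M, w j := Finset.sum_nonneg fun j hj => (hw j hj).1
  have hpad : 0 ≤ (M : ℝ)⁻¹ - τ * ∑ j ∈ Finset.Icc 1 M, w j := by
    have : τ * ∑ j ∈ Finset.Icc 1 M, w j ≤ (M : ℝ)⁻¹ ^ 2 * M :=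
      mul_le_mul h1 hS hS0 (by positivity)
    have e : (M : ℝ)⁻¹ ^ 2 * M = (M : ℝ)⁻¹ := by field_simp
    linarith
  obtain ⟨u, hu⟩ := exists_id (d := d) _ hpad
  refine ⟨fun m => (∑ j ∈ Finset.Icc 1 M, (if j = m then s else t).map (√(w j) • ·)) + u,
    fun m i => ?_, fun m hm1 hm2 v => ?_⟩
  · simp only [Multiset.map_add]
    congr 1
    have key : ∀ m, (∑ j ∈ Finset.Icc 1 M, (if j = m then s else t).map (√(w j) • ·)).map
        (evp (a i)) = ∑ j ∈ Finset.Icc 1 M, (t.map (√(w j) • ·)).map (evp (a i)) := by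
      intro m
      refine (map_sum (Multiset.mapAddMonoidHom (evp (a i))) _ _).trans ?_
      apply Finset.sum_congr rfl
      intro j _
      apply letters_smul
      split_ifs
      · exact h2 i
      · rfl
    rw [key, key]
  · rw [map_add, map_sum, hu]
    have e : ∀ j ∈ Finset.Icc 1 M, Qf v ((if j = m then s else t).map (√(w j) • ·)) =
        (τ * w j + if j = m then w j else 0) * ∑ k, v k ^ 2 := by
      intro j hj
      rw [Qf_smul, Real.sq_sqrt (hw j hj).1]
      split_ifs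
      · rw [h3]; ring
      · rw [h4]; ring
    rw [Finset.sum_congr rfl e, ← Finset.sum_mul, Finset.sum_add_distrib, ← Finset.mul_sum,
      Finset.sum_ite_eq', if_pos (Finset.mem_Icc.2 ⟨hm1, hm2⟩)]
    simp only [w]
    ring

theorem exists_perm_of_map_eq {N : Type} [Fintype N] (g g' : N → ℝ)
    (h : Finset.univ.val.map g = Finset.univ.val.map g') :
    ∃ σ : Equiv.Perm N, ∀ n, g' (σ n) = g n := by
  classical
  have hc : ∀ t, Fintype.card {n // g n = t} = Fintype.card {n // g' n = t} := by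
    intro t
    have key : ∀ g : N → ℝ, Fintype.card {n // g n = t} = (Finset.univ.val.map g).count t := by
      intro g
      rw [Fintype.card_subtype, Multiset.count_map]
      simp only [eq_comm (a := t)]
      rfl
    rw [key, key, h]
  exact ⟨Equiv.ofFiberEquiv fun t => Fintype.equivOfCardEq (hc t),
    fun n => Equiv.ofFiberEquiv_map _ n⟩

theorem exists_family_fun [Fintype A] [Nonempty A] (ha : Function.Injective a) (h : CritR a)
    (M : ℕ) : ∃ (N : ℕ) (f : ℕ → Fin N → Pat d),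
      (∀ m i, ∃ σ : Equiv.Perm (Fin N), ∀ n, evp (a i) (f 0 (σ n)) = evp (a i) (f m n)) ∧
      ∀ m, 1 ≤ m → m ≤ M → ∀ i j, (m : ℝ) * ∑ n, (evp (a i) (f m n) - evp (a j) (f m n)) ^ 2 =
        ∑ k, (a i k - a j k) ^ 2 := by
  obtain ⟨F, h1, h2⟩ := exists_family a ha h M
  obtain ⟨N, hcard⟩ : ∃ N, ∀ m, (F m).card = N := ⟨(F 0).card, by
    intro m
    have := congrArg Multiset.card (h1 m (Classical.arbitrary A))
    simpa using this⟩
  have hf : ∀ m, ∃ f : Fin N → Pat d, Finset.univ.val.map f = F m := by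
    intro m
    rw [← hcard m]
    induction F m using Quotient.inductionOn with
    | _ l =>
      refine ⟨l.get, ?_⟩
      change Finset.univ.val.map (l.get : Fin l.length → Pat d) = (l : Multiset (Pat d))
      rw [Fin.univ_val_map, List.ofFn_get]
  choose f hf using hf
  refine ⟨_, f, fun m i => ?_, fun m hm1 hm2 i j => ?_⟩
  · apply exists_perm_of_map_eq (fun n => evp (a i) (f m n)) (fun n => evp (a i) (f 0 n))
    have := h1 m i
    rw [← hf m, ← hf 0, Multiset.map_map, Multiset.map_map] at this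
    exact this
  · have := h2 m hm1 hm2 (fun k => a i k - a j k)
    rw [← hf m, Qf_apply, Multiset.map_map] at this
    have e : ∑ n, (evp (a i) (f m n) - evp (a j) (f m n)) ^ 2 =
        (m : ℝ)⁻¹ * ∑ k, (a i k - a j k) ^ 2 := by
      rw [← this]
      apply Finset.sum_congr rfl
      intro n _
      simp only [evp_apply, Function.comp_apply, mul_sub, Finset.sum_sub_distrib]
      ring
    rw [e, ← mul_assoc, mul_inv_cancel₀ (by positivity), one_mul]

/-- Sufficiency of the criterion. -/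
theorem ramsey_of_critR [Fintype A] [Nonempty A] (ha : Function.Injective a) (h : CritR a)
    (κ : Type) [Finite κ] : ∃ D : ℕ, 1 ≤ D ∧ ∀ c : EuclideanSpace ℝ (Fin D) → κ,
      ∃ φ : A → EuclideanSpace ℝ (Fin D),
        (∀ i j, dist (φ i) (φ j) = √(∑ k, (a i k - a j k) ^ 2)) ∧ ∀ i j, c (φ i) = c (φ j) := by
  classical
  obtain ⟨ι, _, hι⟩ := Combinatorics.Line.exists_mono_in_high_dimension A κ
  obtain ⟨N, f, hf1, hf2⟩ := exists_family_fun a ha h (Fintype.card ι)
  choose σ hσ using hf1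
  obtain ⟨D, hD, hE⟩ := euclid (Y := ι × Fin N → Fin N × A) (J := ι × Fin N)
    (fun y q => evp (a (y q).2) (f 0 (y q).1)) κ
  refine ⟨D, hD, fun c => ?_⟩
  obtain ⟨ψ, hψ1, hψ2⟩ := hE c
  obtain ⟨ℓ, col, hcol⟩ := hι fun w => c (ψ fun q => (q.2, w q.1))
  let m : ℕ := ∑ j, if ℓ.idxFun j = none then 1 else 0
  have hm1 : 1 ≤ m := by
    obtain ⟨j, hj⟩ := ℓ.proper
    refine le_trans ?_ (Finset.single_le_sum (f := fun j => if ℓ.idxFun j = none then 1 else 0)
      (fun _ _ => Nat.zero_le _) (Finset.mem_univ j))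
    simp [hj]
  have hm2 : m ≤ Fintype.card ι := by
    simp only [m]
    rw [← Finset.card_filter]
    exact Finset.card_le_univ _
  let τ : A → Equiv.Perm (ι × Fin N) := fun i =>
    Equiv.prodCongrRight fun j => if ℓ.idxFun j = none then σ m i else Equiv.refl _
  let y : A → ι × Fin N → Fin N × A := fun i q => (q.2, ℓ i q.1)
  refine ⟨fun i => ψ (y i ∘ τ i), fun i j => ?_, fun i j => ?_⟩
  · refine (hψ1 _ _).trans ?_
    congr 1
    rw [← hf2 m hm1 hm2 i j, Fintype.sum_prod_type]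
    simp only [m]
    rw [Nat.cast_sum, Finset.sum_mul]
    apply Finset.sum_congr rfl
    intro x _
    cases hx : ℓ.idxFun x with
    | none =>
      simp only [if_true, Nat.cast_one, one_mul]
      apply Finset.sum_congr rfl
      intro n _
      simp only [y, τ, Function.comp_apply, Equiv.prodCongrRight_apply, hx, if_true,
        Combinatorics.Line.apply_none _ _ _ hx, hσ, m]
    | some b =>
      simp [y, τ, hx]
  · have key : ∀ i, c (ψ (y i ∘ τ i)) = col := by
      intro i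
      rw [← hcol i]
      refine hψ2 ((τ i).symm.arrowCongr (Equiv.refl _)) (fun z z' => ?_) (y i)
      exact Equiv.sum_comp (τ i) fun q =>
        (evp (a (z q).2) (f 0 (z q).1) - evp (a (z' q).2) (f 0 (z' q).1)) ^ 2
    beta_reduce
    rw [key, key]

end Vale.Agent.P058
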