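import Vale.Agent.P058.Nec
import Vale.Agent.P058.Suff
import Vale.Agent.P058.Sub

/-! The characterization over any field containing the coordinates. -/

namespace Vale.Agent.P058

open scoped TensorProduct

theorem exists_descent (F : Subfield ℝ) : ∃ (θ : ℝ ⊗[ℚ] ℝ →ₗ[ℚ] F ⊗[ℚ] F) (π : ℝ →ₗ[F] F),
    π 1 = 1 ∧ (∀ (f g : F) w, θ (((f : ℝ) ⊗ₜ[ℚ] (g : ℝ)) * w) = (f ⊗ₜ[ℚ] g) * θ w) ∧
      ∀ w, LinearMap.mul' ℚ F (θ w) = π (LinearMap.mul' ℚ ℝ w) := by
  obtain ⟨π, -, hπ⟩ := LinearMap.exists_extend_of_notMem (0 : (⊥ : Submodule F ℝ) →ₗ[F] F)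
    (v := 1) (by simp) 1
  let b := Module.Basis.ofVectorSpace F ℝ
  let θ₀ : ℝ → ℝ →ₗ[F] F ⊗[ℚ] F := fun y => b.constr F fun μ => (1 : F) ⊗ₜ[ℚ] π (b μ * y)
  have hb : ∀ y μ, θ₀ y (b μ) = (1 : F) ⊗ₜ[ℚ] π (b μ * y) := fun y μ => b.constr_basis _ _ _
  have hadd : ∀ x y y', θ₀ (y + y') x = θ₀ y x + θ₀ y' x := by
    intro x y y'
    have : θ₀ (y + y') = θ₀ y + θ₀ y' := b.ext fun μ => by
      rw [LinearMap.add_apply, hb, hb, hb, mul_add, map_add, TensorProduct.tmul_add]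
    rw [this, LinearMap.add_apply]
  let θ : ℝ ⊗[ℚ] ℝ →ₗ[ℚ] F ⊗[ℚ] F := TensorProduct.lift (LinearMap.mk₂ ℚ (fun x y => θ₀ y x)
    (fun x x' y => map_add _ _ _) (fun c x y => map_rat_smul (θ₀ y) c x) hadd
    (fun c x y => map_rat_smul (AddMonoidHom.mk' (fun y => θ₀ y x) (hadd x)) c y))
  have hθ : ∀ x y, θ (x ⊗ₜ y) = θ₀ y x := fun _ _ => rfl
  refine ⟨θ, π, hπ, fun f g w => ?_, fun w => ?_⟩
  · induction w with
    | zero => simp
    | add w w' h h' => rw [mul_add, map_add, map_add, h, h', mul_add]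
    | tmul x y =>
      rw [Algebra.TensorProduct.tmul_mul_tmul, hθ, hθ]
      have h1 : θ₀ (g * y) = (LinearMap.mulLeft F ((1 : F) ⊗ₜ[ℚ] g)).comp (θ₀ y) :=
        b.ext fun μ => by
          rw [LinearMap.comp_apply, hb, hb, LinearMap.mulLeft_apply,
            Algebra.TensorProduct.tmul_mul_tmul, one_mul, mul_left_comm]
          congr 1
          exact π.map_smul g _
      have h2 : (f : ℝ) * x = f • x := rfl
      rw [h2, map_smul, h1, LinearMap.comp_apply, LinearMap.mulLeft_apply, ← smul_mul_assoc,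
        TensorProduct.smul_tmul', smul_eq_mul, mul_one]
  · induction w with
    | zero => simp
    | add w w' h h' => simp only [map_add, h, h']
    | tmul x y =>
      let m : F ⊗[ℚ] F →ₗ[F] F := (Algebra.TensorProduct.lmul'' ℚ (S := F)).toLinearMap
      have hm : ∀ t, LinearMap.mul' ℚ F t = m t := by
        intro t
        induction t with
        | zero => simp
        | add t t' h h' => simp only [map_add, h, h']
        | tmul s s' => exact (Algebra.TensorProduct.lmul'_apply_tmul (R := ℚ) s s').symm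
      have h1 : m.comp (θ₀ y) = π.comp (LinearMap.mulRight F y) := b.ext fun μ => by
        rw [LinearMap.comp_apply, hb, ← hm]
        simp
      rw [hθ, hm]
      exact LinearMap.congr_fun h1 x

variable {d : ℕ}

theorem homog_coe (F : Subfield ℝ) (a : EuclideanSpace ℝ (Fin d)) (ha : ∀ k, a k ∈ F)
    (k : Option (Fin d)) : (homog F a ha k : ℝ) = hp a k := by
  cases k <;> rfl

theorem crit_iff (F : Subfield ℝ) (A : Set (EuclideanSpace ℝ (Fin d)))
    (hF : ∀ a ∈ A, ∀ k, a k ∈ F) :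
    TensorCriterion F A hF ↔ CritR (fun i : A => (i.1 : Fin d → ℝ)) := by
  constructor
  · rintro ⟨P, h1, h2⟩
    let ι : F ⊗[ℚ] F →ₐ[ℚ] ℝ ⊗[ℚ] ℝ :=
      Algebra.TensorProduct.map F.subtype.toRatAlgHom F.subtype.toRatAlgHom
    have hι : ∀ x y : F, ι (x ⊗ₜ y) = (x : ℝ) ⊗ₜ (y : ℝ) := fun _ _ => rfl
    have hm : ∀ w, LinearMap.mul' ℚ ℝ (ι w) = (LinearMap.mul' ℚ F w : ℝ) := by
      intro w
      induction w with
      | zero => simp
      | add w w' h h' => simp only [map_add, h, h', Subfield.coe_add]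
      | tmul x y => simp [hι]
    refine ⟨fun k l => ι (P k l), fun i => ?_, fun k l => ?_⟩
    · have := congrArg ι (h1 i.1 i.2)
      simp only [map_sum, map_mul, hι, homog_coe, map_zero] at this
      exact this
    · rw [hm, h2]
      split_ifs <;> rfl
  · rintro ⟨P, h1, h2⟩
    obtain ⟨θ, π, hπ, hθ1, hθ2⟩ := exists_descent F
    refine ⟨fun k l => θ (P k l), fun a ha => ?_, fun k l => ?_⟩
    · have := congrArg θ (h1 ⟨a, ha⟩)
      simp only [map_sum, map_zero, ← homog_coe F a (hF a ha), hθ1] at this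
      exact this
    · rw [hθ2, h2]
      split_ifs
      · exact hπ
      · exact map_zero _

theorem ramsey_iff_critR (A : Set (EuclideanSpace ℝ (Fin d))) (hfin : A.Finite)
    (hne : A.Nonempty) : IsRamsey A ↔ CritR (fun i : A => (i.1 : Fin d → ℝ)) := by
  have := hfin.fintype
  have := hne.to_subtype
  constructor
  · intro h
    apply critR_of_ramsey (fun i : A => i.1)
    intro κ _
    obtain ⟨n, ⟨e⟩⟩ := Finite.exists_equiv_fin κ
    obtain ⟨D, -, hD⟩ := h (n + 2) (by omega)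
    refine ⟨D, fun c => ?_⟩
    obtain ⟨φ, h1, h2⟩ := hD fun x => Fin.castAdd 2 (e (c x))
    exact ⟨φ, h1, fun i j => e.injective (Fin.castAdd_injective _ _ (h2 i j))⟩
  · intro h r _
    obtain ⟨D, hD, hE⟩ := ramsey_of_critR (fun i : A => (i.1 : Fin d → ℝ))
      (fun i j hij => Subtype.ext (WithLp.ofLp_injective _ hij)) h (Fin r)
    refine ⟨D, hD, fun c => ?_⟩
    obtain ⟨φ, h1, h2⟩ := hE c
    refine ⟨φ, fun i j => ?_, h2⟩
    rw [h1, dist_sq_eq, Real.sqrt_sq dist_nonneg]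
    rfl

theorem ramsey_iff_crit (A : Set (EuclideanSpace ℝ (Fin d))) (hfin : A.Finite)
    (hne : A.Nonempty) (F : Subfield ℝ) (hF : ∀ a ∈ A, ∀ k, a k ∈ F) :
    IsRamsey A ↔ TensorCriterion F A hF :=
  (ramsey_iff_critR A hfin hne).trans (crit_iff F A hF).symm

end Vale.Agent.P058
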