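import Vale.Agent.P058.Bil

/-! Necessity of the tensor criterion. -/

namespace Vale.Agent.P058

open scoped TensorProduct InnerProductSpace

theorem ext_copy {V W A : Type} [NormedAddCommGroup V] [InnerProductSpace ℝ V]
    [FiniteDimensional ℝ V] [NormedAddCommGroup W] [InnerProductSpace ℝ W] [Fintype A]
    (x : A → V) (y : A → W) (h : ∀ i j, ⟪x i, x j⟫_ℝ = ⟪y i, y j⟫_ℝ) :
    ∃ (U : V →ₗ[ℝ] W) (R : V →ₗ[ℝ] V), (∀ i, U (x i) = y i) ∧ (∀ i, R (x i) = 0) ∧
      ∀ v w, ⟪U v, U w⟫_ℝ + ⟪R v, R w⟫_ℝ = ⟪v, w⟫_ℝ := by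
  classical
  let F := Fintype.linearCombination ℝ x
  let F' := Fintype.linearCombination ℝ y
  have hF : ∀ s t, ⟪F' s, F' t⟫_ℝ = ⟪F s, F t⟫_ℝ := by
    intro s t
    simp only [F, F', Fintype.linearCombination_apply, sum_inner, inner_sum, inner_smul_left,
      inner_smul_right, h]
  let K := LinearMap.range F
  obtain ⟨g, hg⟩ := F.rangeRestrict.exists_rightInverse_of_surjective F.range_rangeRestrict
  have hg' : ∀ k : K, F (g k) = k := fun k => congrArg Subtype.val (LinearMap.congr_fun hg k)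
  have hx : ∀ i, x i ∈ K := fun i => ⟨Pi.single i 1, by simp [F]⟩
  refine ⟨F' ∘ₗ g ∘ₗ K.orthogonalProjectionOnto.toLinearMap,
    LinearMap.id - K.starProjection.toLinearMap, fun i => ?_, fun i => ?_, fun v w => ?_⟩
  · have h1 : F (g (K.orthogonalProjectionOnto (x i)) - Pi.single i 1) = 0 := by
      rw [map_sub, hg', Submodule.coe_orthogonalProjectionOnto_apply,
        Submodule.starProjection_eq_self_iff.2 (hx i)]
      simp [F]
    have h2 := hF (g (K.orthogonalProjectionOnto (x i)) - Pi.single i 1)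
      (g (K.orthogonalProjectionOnto (x i)) - Pi.single i 1)
    rw [h1, inner_zero_left, inner_self_eq_zero, map_sub, sub_eq_zero] at h2
    simpa [F'] using h2
  · simp [Submodule.starProjection_eq_self_iff.2 (hx i)]
  · simp only [LinearMap.comp_apply, hF, hg', ContinuousLinearMap.coe_coe,
      Submodule.coe_orthogonalProjectionOnto_apply, LinearMap.sub_apply, LinearMap.id_apply]
    have h1 := K.starProjection_inner_eq_zero v _ (K.starProjection_apply_mem w)
    have h2 := K.starProjection_inner_eq_zero w _ (K.starProjection_apply_mem v)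
    rw [real_inner_comm] at h2
    simp only [inner_sub_left, inner_sub_right] at h1 h2 ⊢
    linarith

theorem inner_of_dist {V W A : Type} [NormedAddCommGroup V] [InnerProductSpace ℝ V]
    [NormedAddCommGroup W] [InnerProductSpace ℝ W] (x : A → V) (y : A → W)
    (h : ∀ i j, dist (y i) (y j) = dist (x i) (x j)) (i₀ i j : A) :
    ⟪x i - x i₀, x j - x i₀⟫_ℝ = ⟪y i - y i₀, y j - y i₀⟫_ℝ := by
  rw [real_inner_eq_norm_mul_self_add_norm_mul_self_sub_norm_sub_mul_self_div_two,
    real_inner_eq_norm_mul_self_add_norm_mul_self_sub_norm_sub_mul_self_div_two]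
  simp only [sub_sub_sub_cancel_right, ← dist_eq_norm, h]

variable {d : ℕ} {A : Type}

/-- The tensor square sum used for colouring. -/
noncomputable def tsq {J : Type} [Fintype J] (x : J → ℝ) : ℝ ⊗[ℚ] ℝ := ∑ j, x j ⊗ₜ[ℚ] x j

theorem tsq_patterns {J : Type} [Fintype J] (u : J → Option (Fin d) → ℝ) (b : Fin d → ℝ) :
    tsq (fun j => ∑ k, hp b k * u j k) =
      ∑ k, ∑ l, (hp b k ⊗ₜ[ℚ] hp b l) * ∑ j, u j k ⊗ₜ[ℚ] u j l := by
  simp only [tsq, TensorProduct.sum_tmul]
  simp only [TensorProduct.tmul_sum, Finset.mul_sum, Algebra.TensorProduct.tmul_mul_tmul]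
  rw [Finset.sum_comm]
  apply Finset.sum_congr rfl
  intro k _
  rw [Finset.sum_comm]

theorem copy_matrix [Fintype A] [Nonempty A] {D : ℕ} (a : A → EuclideanSpace ℝ (Fin d))
    (φ : A → EuclideanSpace ℝ (Fin D)) (h : ∀ i j, dist (φ i) (φ j) = dist (a i) (a j)) :
    ∃ P : Option (Fin d) → Option (Fin d) → ℝ ⊗[ℚ] ℝ,
      (∀ i, ∑ k, ∑ l, (hp (a i) k ⊗ₜ[ℚ] hp (a i) l) * P k l = tsq (φ i)) ∧
      ∀ k l : Fin d, LinearMap.mul' ℚ ℝ (P (some k) (some l)) = if k = l then 1 else 0 := by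
  let i₀ := Classical.arbitrary A
  obtain ⟨U, R, hU, hR, hUR⟩ := ext_copy (fun i => a i - a i₀) (fun i => φ i - φ i₀)
    (inner_of_dist a φ h i₀)
  let u : Fin D ⊕ Fin d → Option (Fin d) → ℝ := Sum.elim
    (fun j o => o.elim (φ i₀ j - U (a i₀) j) fun k => U (EuclideanSpace.single k 1) j)
    (fun j o => o.elim (-R (a i₀) j) fun k => R (EuclideanSpace.single k 1) j)
  have hexp : ∀ {n : ℕ} (T : EuclideanSpace ℝ (Fin d) →ₗ[ℝ] EuclideanSpace ℝ (Fin n))
      (v : EuclideanSpace ℝ (Fin d)) (j : Fin n),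
      ∑ k, v k * T (EuclideanSpace.single k 1) j = T v j := by
    intro n T v j
    have : v = ∑ k, v k • EuclideanSpace.single k (1 : ℝ) := by
      ext k
      simp [Pi.single_apply]
    conv_rhs => rw [this]
    simp
  refine ⟨fun k l => ∑ j, u j k ⊗ₜ[ℚ] u j l, fun i => ?_, fun k l => ?_⟩
  · rw [← tsq_patterns, tsq, tsq, Fintype.sum_sum_type]
    have e1 : ∀ j, ∑ k, hp (a i) k * u (Sum.inl j) k = φ i j := by
      intro j
      have := congrArg (fun z => z j) (hU i)
      simp only [map_sub, PiLp.sub_apply] at this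
      simp only [Fintype.sum_option, u, hp, Option.elim_none, Option.elim_some, Sum.elim_inl,
        hexp]
      linarith
    have e2 : ∀ j, ∑ k, hp (a i) k * u (Sum.inr j) k = 0 := by
      intro j
      have := congrArg (fun z => z j) (hR i)
      simp only [map_sub, PiLp.sub_apply, PiLp.zero_apply] at this
      simp only [Fintype.sum_option, u, hp, Option.elim_none, Option.elim_some, Sum.elim_inr,
        hexp]
      linarith
    simp [e1, e2]
  · have := hUR (EuclideanSpace.single k 1) (EuclideanSpace.single l 1)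
    rw [EuclideanSpace.inner_single_left] at this
    simp only [PiLp.inner_apply] at this
    simp only [Fintype.sum_sum_type, u, Sum.elim_inl, Sum.elim_inr, Option.elim_some]
    simpa [Pi.single_apply, mul_comm] using this

theorem floor_close (n : ℕ) (hn : 0 < n) (x y : ℚ)
    (h : ((⌊n * x⌋ : ℤ) : ZMod (2 * n)) = ((⌊n * y⌋ : ℤ) : ZMod (2 * n))) :
    ∃ z : ℤ, |x - y - 2 * z| < 1 / n := by
  obtain ⟨z, hz⟩ := (ZMod.intCast_eq_intCast_iff_dvd_sub _ _ _).1 h.symm
  refine ⟨z, ?_⟩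
  have hn' : (0 : ℚ) < n := by exact_mod_cast hn
  have h1 := Int.floor_le (n * x)
  have h2 := Int.lt_floor_add_one (n * x)
  have h3 := Int.floor_le (n * y)
  have h4 := Int.lt_floor_add_one (n * y)
  have h5 : ((⌊n * x⌋ : ℤ) : ℚ) - ((⌊n * y⌋ : ℤ) : ℚ) = 2 * n * z := by exact_mod_cast hz
  rw [lt_div_iff₀ hn', ← abs_of_pos hn', ← abs_mul, abs_lt]
  constructor <;> nlinarith

theorem critR_of_ramsey [Fintype A] [Nonempty A] (a : A → EuclideanSpace ℝ (Fin d))
    (h : ∀ (κ : Type) [Finite κ], ∃ D : ℕ, ∀ c : EuclideanSpace ℝ (Fin D) → κ,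
      ∃ φ : A → EuclideanSpace ℝ (Fin D), (∀ i j, dist (φ i) (φ j) = dist (a i) (a j)) ∧
        ∀ i j, c (φ i) = c (φ j)) : CritR (fun i => (a i : Fin d → ℝ)) := by
  classical
  by_contra hcon
  let Φ : (Option (Fin d) → Option (Fin d) → ℝ ⊗[ℚ] ℝ) →ₗ[ℚ] (A → ℝ ⊗[ℚ] ℝ) :=
    { toFun := fun P i => ∑ k, ∑ l, (hp (a i) k ⊗ₜ[ℚ] hp (a i) l) * P k l
      map_add' := fun P Q => by
        funext i
        simp [mul_add, Finset.sum_add_distrib]
      map_smul' := fun c P => by
        funext i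
        simp [Finset.smul_sum] }
  let S₀ : Submodule ℚ (Option (Fin d) → Option (Fin d) → ℝ ⊗[ℚ] ℝ) :=
    { carrier := {P | ∀ k l : Fin d, LinearMap.mul' ℚ ℝ (P (some k) (some l)) = 0}
      zero_mem' := by simp
      add_mem' := fun {P Q} hP hQ k l => by simp [hP k l, hQ k l]
      smul_mem' := fun c P hP k l => by simp [hP k l] }
  let P₀ : Option (Fin d) → Option (Fin d) → ℝ ⊗[ℚ] ℝ := fun k l => if k = l then 1 else 0
  have hP₀ : ∀ k l : Fin d,
      LinearMap.mul' ℚ ℝ (P₀ (some k) (some l)) = if k = l then 1 else 0 := by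
    intro k l
    by_cases hkl : k = l
    · simp [P₀, hkl, Algebra.TensorProduct.one_def]
    · simp [P₀, hkl]
  have hnot : Φ P₀ ∉ S₀.map Φ := by
    rintro ⟨S, hS, e⟩
    apply hcon
    refine ⟨P₀ - S, fun i => ?_, fun k l => ?_⟩
    · have : Φ (P₀ - S) = 0 := by rw [map_sub, e, sub_self]
      exact congrFun this i
    · simp only [Pi.sub_apply, map_sub, hP₀, hS k l, sub_zero]
  obtain ⟨L, hL0, hL1⟩ := LinearMap.exists_extend_of_notMem (0 : S₀.map Φ →ₗ[ℚ] ℚ) hnot 1
  have hL : ∀ S ∈ S₀, L (Φ S) = 0 := fun S hS =>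
    LinearMap.congr_fun hL0 ⟨Φ S, Submodule.mem_map_of_mem hS⟩
  have hsum : ∀ w : A → ℝ ⊗[ℚ] ℝ, L w = ∑ i, L (Pi.single i (w i)) := by
    intro w
    rw [← map_sum, Finset.univ_sum_single]
  have hconst : ∀ w : ℝ ⊗[ℚ] ℝ, L (fun _ => w) = 0 := by
    intro w
    have := hL (fun k l => if k = none ∧ l = none then w else 0) (by intro k l; simp)
    convert this using 2
    funext i
    simp [Φ, Fintype.sum_option, hp, ← Algebra.TensorProduct.one_def]
  let n := Fintype.card A
  have hn : 0 < n := Fintype.card_pos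
  have : NeZero (2 * n) := ⟨by omega⟩
  obtain ⟨D, hD⟩ := h (A → ZMod (2 * n))
  obtain ⟨φ, hφ, hc⟩ := hD fun x i => ((⌊n * L (Pi.single i (tsq x))⌋ : ℤ) : ZMod (2 * n))
  obtain ⟨P, hP1, hP2⟩ := copy_matrix a φ hφ
  have h1 : L (fun i => tsq (φ i)) = 1 := by
    have e : (fun i => tsq (φ i : Fin D → ℝ)) = Φ P := funext fun i => (hP1 i).symm
    have := hL (P - P₀) (fun k l => by simp only [Pi.sub_apply, map_sub, hP₀, hP2, sub_self])
    rw [map_sub, map_sub, hL1] at this
    rw [e]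
    linarith
  let i₀ := Classical.arbitrary A
  have h2 := hconst (tsq (φ i₀))
  rw [hsum] at h1 h2
  choose z hz using fun i => floor_close n hn _ _ (congrFun (hc i i₀) i)
  have h3 : |1 - 2 * ((∑ i, z i : ℤ) : ℚ)| < 1 := by
    have e : 1 - 2 * ((∑ i, z i : ℤ) : ℚ) = ∑ i, (L (Pi.single i (tsq (φ i))) -
        L (Pi.single i (tsq (φ i₀))) - 2 * z i) := by
      rw [Finset.sum_sub_distrib, Finset.sum_sub_distrib, h1, h2, ← Finset.mul_sum]
      push_cast
      ring
    rw [e]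
    refine (Finset.abs_sum_le_sum_abs _ _).trans_lt ?_
    refine (Finset.sum_lt_sum_of_nonempty Finset.univ_nonempty fun i _ => hz i).trans_le ?_
    have hn' : (n : ℚ) ≠ 0 := by positivity
    rw [Finset.sum_const, Finset.card_univ, nsmul_eq_mul, mul_one_div_cancel hn']
  have h4 : |1 - 2 * (∑ i, z i)| < 1 := by exact_mod_cast h3
  rw [abs_lt] at h4
  omega

end Vale.Agent.P058
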