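import Mathlib

/-! Products of constants and translated copies of a map from a finite group into a group. -/

namespace Vale.Agent.P058

variable {G : Type} [Group G]

/-- `u` is a product of constants and exactly `d` translated copies of `x`. -/
inductive RelP {Γ : Type} [Group Γ] (x : G → Γ) : (G → Γ) → ℕ → Prop
  | const (c : Γ) : RelP x (fun _ => c) 0
  | pat (h : G) : RelP x (fun g => x (h * g)) 1
  | mul {u v : G → Γ} {d e : ℕ} : RelP x u d → RelP x v e → RelP x (u * v) (d + e)

/-- The signed version of `RelP`. -/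
inductive RelG {Γ : Type} [Group Γ] (x : G → Γ) : (G → Γ) → ℤ → Prop
  | const (c : Γ) : RelG x (fun _ => c) 0
  | pat (h : G) : RelG x (fun g => x (h * g)) 1
  | mul {u v : G → Γ} {d e : ℤ} : RelG x u d → RelG x v e → RelG x (u * v) (d + e)
  | inv {u : G → Γ} {d : ℤ} : RelG x u d → RelG x u⁻¹ (-d)

variable {Γ : Type} [Group Γ]

theorem RelP.cast {x u v : G → Γ} {d e : ℕ} (h : RelP x u d) (h1 : u = v) (h2 : d = e) :
    RelP x v e := h1 ▸ h2 ▸ h

theorem RelG.cast {x u v : G → Γ} {d e : ℤ} (h : RelG x u d) (h1 : u = v) (h2 : d = e) :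
    RelG x v e := h1 ▸ h2 ▸ h

theorem RelP.one (x : G → Γ) : RelP x 1 0 := RelP.const 1

theorem RelG.one (x : G → Γ) : RelG x 1 0 := RelG.const 1

theorem RelP.self (x : G → Γ) : RelP x x 1 := (RelP.pat 1).cast (by funext g; simp) rfl

theorem RelG.self (x : G → Γ) : RelG x x 1 := (RelG.pat 1).cast (by funext g; simp) rfl

theorem RelP.shift {x u : G → Γ} {d : ℕ} (hu : RelP x u d) (h : G) :
    RelP x (fun g => u (h * g)) d := by
  induction hu with
  | const c => exact RelP.const c
  | pat k => exact (RelP.pat (k * h)).cast (by funext g; rw [mul_assoc]) rfl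
  | mul _ _ ih1 ih2 => exact ih1.mul ih2

theorem RelG.shift {x u : G → Γ} {d : ℤ} (hu : RelG x u d) (h : G) :
    RelG x (fun g => u (h * g)) d := by
  induction hu with
  | const c => exact RelG.const c
  | pat k => exact (RelG.pat (k * h)).cast (by funext g; rw [mul_assoc]) rfl
  | mul _ _ ih1 ih2 => exact ih1.mul ih2
  | inv _ ih => exact ih.inv

theorem RelP.comp {x u v : G → Γ} {d e : ℕ} (hu : RelP x u d) (hv : RelP u v e) :
    RelP x v (d * e) := by
  induction hv with
  | const c => exact RelP.const c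
  | pat k => exact (hu.shift k).cast rfl (by simp)
  | mul _ _ ih1 ih2 => exact (ih1.mul ih2).cast rfl (by ring)

theorem RelG.comp {x u v : G → Γ} {d e : ℤ} (hu : RelG x u d) (hv : RelG u v e) :
    RelG x v (d * e) := by
  induction hv with
  | const c => exact (RelG.const c).cast rfl (by simp)
  | pat k => exact (hu.shift k).cast rfl (by simp)
  | mul _ _ ih1 ih2 => exact (ih1.mul ih2).cast rfl (by ring)
  | inv _ ih => exact ih.inv.cast rfl (by ring)

theorem RelP.push {Δ : Type} [Group Δ] (f : Γ →* Δ) {x u : G → Γ} {d : ℕ} (hu : RelP x u d) :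
    RelP (fun g => f (x g)) (fun g => f (u g)) d := by
  induction hu with
  | const c => exact RelP.const _
  | pat k => exact RelP.pat (x := fun g => f (x g)) k
  | mul _ _ ih1 ih2 => exact (ih1.mul ih2).cast (by funext g; simp) rfl

theorem RelG.push {Δ : Type} [Group Δ] (f : Γ →* Δ) {x u : G → Γ} {d : ℤ} (hu : RelG x u d) :
    RelG (fun g => f (x g)) (fun g => f (u g)) d := by
  induction hu with
  | const c => exact RelG.const _
  | pat k => exact RelG.pat (x := fun g => f (x g)) k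
  | mul _ _ ih1 ih2 => exact (ih1.mul ih2).cast (by funext g; simp) rfl
  | inv _ ih => exact ih.inv.cast (by funext g; simp) rfl

theorem RelG.lift {Δ : Type} [Group Δ] (f : Γ →* Δ) (hf : Function.Surjective f) {x : G → Γ}
    {w : G → Δ} {d : ℤ} (hw : RelG (fun g => f (x g)) w d) :
    ∃ u, RelG x u d ∧ ∀ g, f (u g) = w g := by
  induction hw with
  | const c =>
    obtain ⟨c, rfl⟩ := hf c
    exact ⟨_, RelG.const c, fun _ => rfl⟩
  | pat k => exact ⟨_, RelG.pat k, fun _ => rfl⟩
  | mul _ _ ih1 ih2 =>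
    obtain ⟨u, hu, hu'⟩ := ih1
    obtain ⟨v, hv, hv'⟩ := ih2
    exact ⟨u * v, hu.mul hv, fun g => by simp [hu', hv']⟩
  | inv _ ih =>
    obtain ⟨u, hu, hu'⟩ := ih
    exact ⟨u⁻¹, hu.inv, fun g => by simp [hu']⟩

theorem RelG.inva {x u : G → Γ} {d : ℤ} (hu : RelG x u d) {s : G}
    (hs : ∀ h, x (h * s) = x h) : ∀ h, u (h * s) = u h := by
  induction hu with
  | const c => exact fun _ => rfl
  | pat k => intro h; simp only [← mul_assoc, hs]
  | mul _ _ ih1 ih2 => intro h; simp [ih1 h, ih2 h]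
  | inv _ ih => intro h; simp [ih h]

theorem RelP.pow {x u : G → Γ} {d : ℕ} (hu : RelP x u d) (n : ℕ) : RelP x (u ^ n) (n * d) := by
  induction n with
  | zero => exact (RelP.one x).cast (by simp) (by simp)
  | succ n ih => exact (ih.mul hu).cast (by rw [pow_succ]) (by ring)

theorem RelG.listProd {x : G → Γ} (l : List G) :
    RelG x (fun a => (l.map fun h => x (h * a)).prod) l.length := by
  induction l with
  | nil => exact (RelG.one x).cast (by funext a; simp) (by simp)
  | cons h l ih =>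
    exact ((RelG.pat h).mul ih).cast (by funext a; simp) (by simp [add_comm])

/-- Values at `s` of elements of any degree that are trivial on `B`. -/
def Lany (x : G → Γ) (B : Set G) (s : G) : Subgroup Γ where
  carrier := {c | ∃ u d, RelG x u d ∧ (∀ t ∈ B, u t = 1) ∧ u s = c}
  one_mem' := ⟨1, 0, RelG.one x, fun _ _ => rfl, rfl⟩
  mul_mem' := by
    rintro _ _ ⟨u, d, hu, hu1, rfl⟩ ⟨v, e, hv, hv1, rfl⟩
    exact ⟨u * v, d + e, hu.mul hv, fun t ht => by simp [hu1 t ht, hv1 t ht], rfl⟩
  inv_mem' := by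
    rintro _ ⟨u, d, hu, hu1, rfl⟩
    exact ⟨u⁻¹, -d, hu.inv, fun t ht => by simp [hu1 t ht], rfl⟩

/-- Values at `s` of elements of degree zero that are trivial on `B`. -/
def Lzero (x : G → Γ) (B : Set G) (s : G) : Subgroup Γ where
  carrier := {c | ∃ u, RelG x u 0 ∧ (∀ t ∈ B, u t = 1) ∧ u s = c}
  one_mem' := ⟨1, RelG.one x, fun _ _ => rfl, rfl⟩
  mul_mem' := by
    rintro _ _ ⟨u, hu, hu1, rfl⟩ ⟨v, hv, hv1, rfl⟩
    exact ⟨u * v, (hu.mul hv).cast rfl (by simp), fun t ht => by simp [hu1 t ht, hv1 t ht], rfl⟩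
  inv_mem' := by
    rintro _ ⟨u, hu, hu1, rfl⟩
    exact ⟨u⁻¹, hu.inv.cast rfl (by simp), fun t ht => by simp [hu1 t ht], rfl⟩

theorem Lzero_le_Lany (x : G → Γ) (B : Set G) (s : G) : Lzero x B s ≤ Lany x B s := by
  rintro _ ⟨u, hu, hu1, rfl⟩
  exact ⟨u, 0, hu, hu1, rfl⟩

theorem comm_Lany (x : G → Γ) (B B' : Set G) (s : G) :
    ⁅Lany x B s, Lany x B' s⁆ ≤ Lzero x (B ∪ B') s := by
  rw [Subgroup.commutator_le]
  rintro _ ⟨u, d, hu, hu1, rfl⟩ _ ⟨v, e, hv, hv1, rfl⟩
  refine ⟨u * v * u⁻¹ * v⁻¹, (((hu.mul hv).mul hu.inv).mul hv.inv).cast rfl (by ring), ?_, ?_⟩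
  · rintro t (ht | ht)
    · simp [hu1 t ht]
    · simp [hv1 t ht]
  · simp [commutatorElement_def]

instance Lany_normal (x : G → Γ) (B : Set G) (s : G) : (Lany x B s).Normal where
  conj_mem := by
    rintro _ ⟨u, d, hu, hu1, rfl⟩ g
    exact ⟨(fun _ => g) * u * (fun _ => g⁻¹), _, ((RelG.const g).mul hu).mul (RelG.const g⁻¹),
      fun t ht => by simp [hu1 t ht], rfl⟩

/-- The normal subgroup that makes `x` invariant under right translation by `s`. -/
def Nsub (x : G → Γ) (s : G) : Subgroup Γ :=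
  Subgroup.normalClosure (Set.range fun h => x (h * s) * (x h)⁻¹)

instance Nsub_normal (x : G → Γ) (s : G) : (Nsub x s).Normal := Subgroup.normalClosure_normal

theorem Nsub_le_Lany (x : G → Γ) (s t : G) : Nsub x (t⁻¹ * s) ≤ Lany x {t} s := by
  apply Subgroup.normalClosure_le_normal
  rintro _ ⟨h, rfl⟩
  refine ⟨(fun g => x (h * t⁻¹ * g)) * (fun _ => (x h)⁻¹), _,
    (RelG.pat _).mul (RelG.const _), ?_, ?_⟩
  · rintro t rfl
    simp
  · simp [mul_assoc]

/-- The derived series of a subgroup. -/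
def der (N : Subgroup Γ) : ℕ → Subgroup Γ
  | 0 => N
  | c + 1 => ⁅der N c, der N c⁆

theorem der_succ_le (N : Subgroup Γ) (c : ℕ) : der N (c + 1) ≤ der N c := by
  change ⁅der N c, der N c⁆ ≤ der N c
  rw [Subgroup.commutator_le]
  intro a ha b hb
  rw [commutatorElement_def]
  exact mul_mem (mul_mem (mul_mem ha hb) (inv_mem ha)) (inv_mem hb)

theorem der_anti (N : Subgroup Γ) : Antitone (der N) :=
  antitone_nat_of_succ_le (der_succ_le N)

theorem der_le_Lany (x : G → Γ) (N : Subgroup Γ) (s : G) (B : Finset G)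
    (hB : ∀ t ∈ B, N ≤ Nsub x (t⁻¹ * s)) : der N B.card ≤ Lany x B s := by
  classical
  induction B using Finset.induction_on with
  | empty =>
    intro c _
    exact ⟨_, _, RelG.const c, by simp, rfl⟩
  | insert t B ht ih =>
    rw [Finset.card_insert_of_notMem ht]
    have h1 := ih fun t' ht' => hB t' (Finset.mem_insert_of_mem ht')
    have h2 : der N B.card ≤ Lany x {t} s :=
      (der_anti N (Nat.zero_le _)).trans
        ((hB t (Finset.mem_insert_self _ _)).trans (Nsub_le_Lany x s t))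
    have h3 := (Subgroup.commutator_mono h2 h1).trans
      ((comm_Lany x {t} B s).trans (Lzero_le_Lany _ _ _))
    rw [Finset.coe_insert, Set.insert_eq]
    exact h3

theorem prod_perm_mem (K : Subgroup Γ) {l₁ l₂ : List Γ} (hp : l₁.Perm l₂)
    (hl : ∀ a ∈ l₁, a ∈ K) : l₁.prod * (l₂.prod)⁻¹ ∈ ⁅K, K⁆ := by
  have hl2 : ∀ a ∈ l₂, a ∈ K := fun a ha => hl a (hp.mem_iff.2 ha)
  let m₁ : List K := l₁.pmap (fun a ha => ⟨a, ha⟩) hl
  let m₂ : List K := l₂.pmap (fun a ha => ⟨a, ha⟩) hl2
  have hm : m₁.Perm m₂ := hp.pmap _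
  have e1 : (m₁.map K.subtype) = l₁ := by simp [m₁, List.map_pmap]
  have e2 : (m₂.map K.subtype) = l₂ := by simp [m₂, List.map_pmap]
  have h1 : Abelianization.of (m₁.prod * (m₂.prod)⁻¹) = 1 := by
    rw [map_mul, map_inv, map_list_prod, map_list_prod, (hm.map _).prod_eq, mul_inv_cancel]
  have h2 : m₁.prod * (m₂.prod)⁻¹ ∈ commutator K := by
    rw [← Abelianization.ker_of]
    exact h1
  have h3 : K.subtype (m₁.prod * (m₂.prod)⁻¹) ∈ ⁅K, K⁆ := by
    rw [← Subgroup.map_subtype_commutator]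
    exact Subgroup.mem_map_of_mem _ h2
  rw [map_mul, map_inv, map_list_prod, map_list_prod, e1, e2] at h3
  exact h3

theorem into_der [Finite G] (N : Subgroup Γ) (x y : G → Γ) (d : ℤ) (hd : d ≠ 0)
    (hy : RelG x y d) (hN : ∀ g, y g ∈ N) (c : ℕ) :
    ∃ (z : G → Γ) (e : ℤ), e ≠ 0 ∧ RelG x z e ∧ ∀ g, z g ∈ der N c := by
  classical
  induction c with
  | zero => exact ⟨y, d, hd, hy, hN⟩
  | succ c ih =>
    obtain ⟨z, e, he, hz, hzN⟩ := ih
    have := Fintype.ofFinite G
    let l : List G := Finset.univ.toList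
    have hl : (l.length : ℤ) ≠ 0 := by
      simp [l]
    have h1 : RelG z ((fun a => (l.map fun h => z (h * a)).prod) *
        (fun _ => ((l.map z).prod)⁻¹)) (l.length + 0) := (RelG.listProd l).mul (RelG.const _)
    refine ⟨_, _, ?_, hz.comp h1, fun a => ?_⟩
    · simpa using ⟨he, by simpa using hl⟩
    · apply prod_perm_mem
      · have : (l.map fun h => z (h * a)) = (l.map (fun h => h * a)).map z := by simp
        rw [this]
        apply List.Perm.map
        rw [List.perm_ext_iff_of_nodup]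
        · intro b
          simp only [List.mem_map, l, Finset.mem_toList, Finset.mem_univ, true_and, iff_true]
          exact ⟨b * a⁻¹, by simp⟩
        · exact (Finset.nodup_toList _).map (mul_left_injective a)
        · exact Finset.nodup_toList _
      · intro b hb
        obtain ⟨h, _, rfl⟩ := List.mem_map.1 hb
        exact hzN _

theorem kill [Finite G] (H : Subgroup G) (x : G → Γ) (hx : ∀ s ∈ H, ∀ h, x (h * s) = x h)
    (K : Subgroup Γ) (hK : ∀ s, K ≤ Lzero x {t | t⁻¹ * s ∉ H} s) (d : ℤ) (T : Finset G) :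
    ∀ y : G → Γ, RelG x y d → (∀ g, y g ∈ K) → (∀ g ∉ T, y g = 1) → RelG x 1 d := by
  classical
  induction T using Finset.induction_on with
  | empty =>
    intro y hy _ h1
    exact hy.cast (funext fun g => h1 g (by simp)) rfl
  | insert s T hs ih =>
    intro y hy hyK h1
    obtain ⟨w, hw, hw1, hws⟩ := hK s (hyK s)
    have key : ∀ g, (y * w⁻¹) g = 1 ∨ ((y * w⁻¹) g = y g ∧ g ≠ s) := by
      intro g
      by_cases hg : g⁻¹ * s ∈ H
      · left
        have e1 := hy.inva (hx _ hg) g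
        have e2 := hw.inva (hx _ hg) g
        simp only [mul_inv_cancel_left] at e1 e2
        simp [← e1, ← e2, hws]
      · right
        refine ⟨by simp [hw1 g hg], ?_⟩
        rintro rfl
        simp at hg
    refine ih (y * w⁻¹) ((hy.mul hw.inv).cast rfl (by simp)) (fun g => ?_) (fun g hg => ?_)
    · rcases key g with h | ⟨h, _⟩
      · rw [h]; exact one_mem _
      · rw [h]; exact hyK g
    · rcases key g with h | ⟨h, h'⟩
      · exact h
      · rw [h]; exact h1 g (by simp [h', hg])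

/-- The trivial map has a nonzero signed degree. -/
theorem exists_signed [Finite G] (H : Subgroup G) :
    ∀ (Γ : Type) [Group Γ] (x : G → Γ), (∀ s ∈ H, ∀ h, x (h * s) = x h) →
      ∃ d : ℤ, d ≠ 0 ∧ RelG x 1 d := by
  classical
  induction H using (wellFounded_gt (α := Subgroup G)).induction with
  | _ H ih =>
  intro Γ _ x hx
  have := Fintype.ofFinite G
  -- first make the map constant modulo each `Nsub x s`
  have step1 : ∀ T : Finset G, (∀ s ∈ T, s ∉ H) → ∃ (y : G → Γ) (d : ℤ), d ≠ 0 ∧ RelG x y d ∧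
      ∀ s ∈ T, ∀ g, y g * (y 1)⁻¹ ∈ Nsub x s := by
    intro T
    induction T using Finset.induction_on with
    | empty => exact fun _ => ⟨x, 1, one_ne_zero, RelG.self x, by simp⟩
    | insert s T hs ihT =>
      intro hT
      obtain ⟨y, d, hd, hy, hyN⟩ := ihT fun t ht => hT t (Finset.mem_insert_of_mem ht)
      have hsH : s ∉ H := hT s (Finset.mem_insert_self _ _)
      let f := QuotientGroup.mk' (Nsub x s)
      let H' : Subgroup G :=
        { carrier := {t | ∀ h, f (x (h * t)) = f (x h)}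
          one_mem' := by intro h; simp
          mul_mem' := by
            intro a b ha hb h
            rw [← mul_assoc, hb, ha]
          inv_mem' := by
            intro a ha h
            have := ha (h * a⁻¹)
            simpa using this.symm }
      have hlt : H < H' := by
        refine lt_of_le_of_ne (fun t ht h => by rw [hx t ht]) ?_
        intro e
        apply hsH
        rw [e]
        intro h
        have : x (h * s) * (x h)⁻¹ ∈ Nsub x s :=
          Subgroup.subset_normalClosure ⟨h, rfl⟩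
        rw [← mul_inv_eq_one, ← map_inv, ← map_mul]
        exact (QuotientGroup.eq_one_iff _).2 this
      obtain ⟨e, he, hrel⟩ := ih H' hlt _ (fun g => f (y g))
        (fun t ht => (hy.push f).inva ht)
      obtain ⟨u, hu, hu1⟩ := hrel.lift f (QuotientGroup.mk'_surjective _)
      refine ⟨u, d * e, mul_ne_zero hd he, hy.comp hu, ?_⟩
      intro t ht g
      rcases Finset.mem_insert.1 ht with rfl | ht
      · have h1 : u g ∈ Nsub x t := (QuotientGroup.eq_one_iff _).1 (hu1 g)
        have h2 : u 1 ∈ Nsub x t := (QuotientGroup.eq_one_iff _).1 (hu1 1)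
        exact mul_mem h1 (inv_mem h2)
      · let f' := QuotientGroup.mk' (Nsub x t)
        have hc : ∀ g, f' (y g) = f' (y 1) := by
          intro g
          rw [← mul_inv_eq_one, ← map_inv, ← map_mul]
          exact (QuotientGroup.eq_one_iff _).2 (hyN t ht g)
        have h3 := (hu.push f').inva (s := g) (fun h => by rw [hc, hc h]) 1
        simp only [one_mul] at h3
        rw [← mul_inv_eq_one, ← map_inv, ← map_mul] at h3
        exact (QuotientGroup.eq_one_iff _).1 h3
  obtain ⟨y, d, hd, hy, hyN⟩ := step1 (Finset.univ.filter fun s => s ∉ H) (by simp)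
  let N : Subgroup Γ := ⨅ s ∈ {s : G | s ∉ H}, Nsub x s
  have hy' : RelG x (y * fun _ => (y 1)⁻¹) (d + 0) := hy.mul (RelG.const _)
  have hN : ∀ g, (y * (fun _ => (y 1)⁻¹ : G → Γ)) g ∈ N := by
    intro g
    simp only [N, Subgroup.mem_iInf]
    intro s hs
    exact hyN s (by simpa using hs) g
  obtain ⟨z, e, he, hz, hzN⟩ := into_der N x _ _ (by simpa using hd) hy' hN (Fintype.card G + 1)
  refine ⟨e, he, kill H x hx (der N (Fintype.card G + 1)) (fun s => ?_) e Finset.univ z hz hzN
    (by simp)⟩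
  let B : Finset G := Finset.univ.filter fun t => t⁻¹ * s ∉ H
  have h1 : der N B.card ≤ Lany x B s := der_le_Lany x N s B fun t ht =>
    iInf₂_le (f := fun s (_ : s ∈ {s : G | s ∉ H}) => Nsub x s) _ (by simpa [B] using ht)
  have h2 : der N (Fintype.card G) ≤ Lany x B s :=
    (der_anti N (Finset.card_le_univ B)).trans h1
  have h3 := (Subgroup.commutator_mono h2 h2).trans (comm_Lany x B B s)
  have h4 : ((B : Set G) ∪ B) = {t | t⁻¹ * s ∉ H} := by
    ext t; simp [B]
  rw [h4] at h3
  exact h3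

theorem ore_aux [Finite G] (x : G → Γ) (T : Finset G) :
    ∀ (U V : G → Γ) (p q : ℕ), RelP x U p → RelP x V q →
      ∃ (A B : G → Γ) (a b : ℕ), RelP x A a ∧ RelP x B b ∧ p + a = q + b ∧
        ∀ g ∈ T, (U * A) g = (V * B) g := by
  classical
  induction T using Finset.induction_on with
  | empty =>
    intro U V p q hU hV
    exact ⟨V, U, q, p, hV, hU, add_comm _ _, by simp⟩
  | insert r T hr ih =>
    intro U V p q hU hV
    obtain ⟨A, B, a, b, hA, hB, hab, hT⟩ := ih U V p q hU hV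
    refine ⟨A * ((fun _ => ((U * A) r)⁻¹) * (V * B)), B * ((fun _ => ((U * A) r)⁻¹) * (U * A)),
      _, _, hA.mul ((RelP.const _).mul (hV.mul hB)), hB.mul ((RelP.const _).mul (hU.mul hA)),
      by omega, ?_⟩
    intro g hg
    rcases Finset.mem_insert.1 hg with rfl | hg
    · simp only [Pi.mul_apply]
      group
    · have := hT g hg
      simp only [Pi.mul_apply] at this ⊢
      rw [← mul_assoc (U g), ← mul_assoc (V g), this]

theorem frac [Finite G] {x u : G → Γ} {d : ℤ} (hu : RelG x u d) :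
    ∃ (U V : G → Γ) (p q : ℕ), RelP x U p ∧ RelP x V q ∧ u * V = U ∧ d = p - q := by
  have := Fintype.ofFinite G
  induction hu with
  | const c => exact ⟨_, 1, 0, 0, RelP.const c, RelP.one x, by simp, by simp⟩
  | pat k => exact ⟨_, 1, 1, 0, RelP.pat k, RelP.one x, by simp, by simp⟩
  | @mul u u' d d' _ _ ih1 ih2 =>
    obtain ⟨U, V, p, q, hU, hV, e1, e2⟩ := ih1
    obtain ⟨U', V', p', q', hU', hV', e1', e2'⟩ := ih2
    obtain ⟨A, B, a, b, hA, hB, hab, hT⟩ := ore_aux x Finset.univ V U' q p' hV hU'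
    have hT' : V * A = U' * B := funext fun g => hT g (Finset.mem_univ g)
    refine ⟨U * A, V' * B, _, _, hU.mul hA, hV'.mul hB, ?_, ?_⟩
    · rw [mul_assoc, ← mul_assoc u', e1', ← hT', ← mul_assoc, e1]
    · push_cast
      omega
  | inv _ ih =>
    obtain ⟨U, V, p, q, hU, hV, e1, e2⟩ := ih
    exact ⟨V, U, q, p, hV, hU, by rw [← e1]; simp, by omega⟩

theorem two_degrees (G : Type) [Group G] [Finite G] : ∃ p q : ℕ, p < q ∧
    ∀ (Γ : Type) [Group Γ] (x : G → Γ), ∃ u, RelP x u p ∧ RelP x u q := by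
  obtain ⟨d, hd, h1⟩ := exists_signed (⊥ : Subgroup G) (FreeGroup G) FreeGroup.of
    (by intro s hs h; rw [Subgroup.mem_bot.1 hs, mul_one])
  obtain ⟨U, V, p, q, hU, hV, e1, e2⟩ := frac h1
  rw [one_mul] at e1
  subst e1
  have key : ∀ (Γ : Type) [Group Γ] (x : G → Γ), ∃ u, RelP x u p ∧ RelP x u q := by
    intro Γ _ x
    have a1 := hU.push (FreeGroup.lift x)
    have a2 := hV.push (FreeGroup.lift x)
    simp only [FreeGroup.lift_apply_of] at a1 a2
    exact ⟨_, a1, a2⟩
  rcases lt_trichotomy p q with h | h | h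
  · exact ⟨p, q, h, key⟩
  · exfalso; apply hd; omega
  · refine ⟨q, p, h, fun Γ _ x => ?_⟩
    obtain ⟨u, h1, h2⟩ := key Γ x
    exact ⟨u, h2, h1⟩

theorem bern (p k : ℕ) : p ^ k * (p + k) ≤ (p + 1) ^ k * p := by
  induction k with
  | zero => simp
  | succ k ih =>
    have : p ^ (k + 1) * (p + (k + 1)) ≤ p ^ k * (p + k) * (p + 1) := by
      rw [pow_succ, mul_assoc, mul_assoc]
      apply Nat.mul_le_mul_left
      nlinarith
    calc _ ≤ _ := this
      _ ≤ (p + 1) ^ k * p * (p + 1) := Nat.mul_le_mul_right _ ih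
      _ = _ := by ring

theorem far_degrees [Finite G] (x : G → Γ) (M : ℕ) :
    ∃ (P D : ℕ) (u : G → Γ), 1 ≤ D ∧ P * M ≤ D ∧ RelP x u P ∧ RelP x u (P + D) := by
  obtain ⟨p, q, hpq, h⟩ := two_degrees G
  have it : ∀ k : ℕ, ∃ u, RelP x u (p ^ k) ∧ RelP x u (q ^ k) := by
    intro k
    induction k with
    | zero => exact ⟨x, by simpa using RelP.self x, by simpa using RelP.self x⟩
    | succ k ih =>
      obtain ⟨u, h1, h2⟩ := ih
      obtain ⟨v, h3, h4⟩ := h Γ u
      exact ⟨v, (h1.comp h3).cast rfl (by ring), (h2.comp h4).cast rfl (by ring)⟩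
  obtain ⟨u, h1, h2⟩ := it (p * M + 1)
  have hlt : p ^ (p * M + 1) < q ^ (p * M + 1) := Nat.pow_lt_pow_left hpq (by omega)
  have hle : p ^ (p * M + 1) * (M + 1) ≤ q ^ (p * M + 1) := by
    rcases Nat.eq_zero_or_pos p with rfl | hp
    · simp
    · have b := bern p (p * M + 1)
      have b2 : (p + 1) ^ (p * M + 1) ≤ q ^ (p * M + 1) := Nat.pow_le_pow_left hpq _
      have b3 : p ^ (p * M + 1) * (M + 1) * p ≤ q ^ (p * M + 1) * p := by
        calc _ ≤ p ^ (p * M + 1) * (p + (p * M + 1)) := by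
              rw [mul_assoc]
              apply Nat.mul_le_mul_left
              nlinarith
          _ ≤ _ := b
          _ ≤ _ := Nat.mul_le_mul_right _ b2
      exact Nat.le_of_mul_le_mul_right b3 hp
  refine ⟨p ^ (p * M + 1), q ^ (p * M + 1) - p ^ (p * M + 1), u, by omega, ?_, h1,
    h2.cast rfl (by omega)⟩
  rw [mul_add, mul_one] at hle
  omega

/-- One map has all the degrees `L / m` for `1 ≤ m ≤ M`. -/
theorem all_degrees [Finite G] (x : G → Γ) (M : ℕ) :
    ∃ (L : ℕ) (k : G → Γ), 1 ≤ L ∧ ∀ m, 1 ≤ m → m ≤ M → ∃ e, m * e = L ∧ RelP x k e := by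
  rcases Nat.eq_zero_or_pos M with rfl | hM
  · exact ⟨1, x, le_rfl, fun m h1 h2 => by omega⟩
  obtain ⟨P, D, u, hD, hPD, h1, h2⟩ := far_degrees x M
  obtain ⟨M, rfl⟩ : ∃ M', M = M' + 1 := ⟨M - 1, by omega⟩
  obtain ⟨D', hD'⟩ : ∃ D', D = P * (M + 1) + D' := ⟨D - P * (M + 1), by omega⟩
  refine ⟨D * (M + 1).factorial, u ^ (M + 1).factorial * x ^ (D' * M.factorial),
    Nat.mul_pos hD (Nat.factorial_pos _), fun m hm1 hm2 => ?_⟩
  obtain ⟨t, ht⟩ : m ∣ (M + 1).factorial := Nat.dvd_factorial hm1 hm2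
  have ht1 : M.factorial ≤ t := by
    have : (M + 1) * M.factorial ≤ (M + 1) * t := by
      rw [← Nat.factorial_succ, ht]
      exact Nat.mul_le_mul_right _ hm2
    exact Nat.le_of_mul_le_mul_left this (by omega)
  have ht2 : t ≤ (M + 1).factorial := by
    rw [ht]
    exact Nat.le_mul_of_pos_left _ hm1
  obtain ⟨j, hj⟩ : ∃ j, t = M.factorial + j := ⟨t - M.factorial, by omega⟩
  obtain ⟨i, hi⟩ : ∃ i, (M + 1).factorial = j + i := ⟨(M + 1).factorial - j, by omega⟩
  refine ⟨D * t, by rw [ht]; ring, ?_⟩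
  have h3 := ((h2.pow j).mul (h1.pow i)).mul ((RelP.self x).pow (D' * M.factorial))
  refine h3.cast (by rw [← pow_add, ← hi]) ?_
  have e1 : j + i = (M + 1) * M.factorial := by rw [← hi, Nat.factorial_succ]
  have e2 : j * (P + D) + i * P = j * D + (j + i) * P := by ring
  rw [e2, e1, hj, hD']
  ring

end Vale.Agent.P058
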