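import Vale.Agent.P058.Rel

/-! A fixed-degree Hales–Jewett theorem for a finite group acting on itself. -/

namespace Vale.Agent.P058

open Filter

theorem exists_min_idem {M : Type} [Nonempty M] [Semigroup M] [TopologicalSpace M]
    [CompactSpace M] [T2Space M] (hc : ∀ r : M, Continuous (· * r)) :
    ∃ p : M, p * p = p ∧ ∀ z, ∃ w, w * (z * p) = p := by
  let S : Set (Set M) := {N | IsClosed N ∧ N.Nonempty ∧ ∀ m, ∀ m' ∈ N, m * m' ∈ N}
  rsuffices ⟨N, hN⟩ : ∃ N', Minimal (· ∈ S) N'
  · obtain ⟨N_closed, hne, N_mul⟩ := hN.prop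
    obtain ⟨p, hp, hpp⟩ := exists_idempotent_in_compact_subsemigroup hc N hne N_closed.isCompact
      fun x _ y hy => N_mul x y hy
    refine ⟨p, hpp, fun z => ?_⟩
    have : Set.range (· * (z * p)) = N := by
      apply hN.eq_of_subset
      · refine ⟨(isCompact_range (hc _)).isClosed, Set.range_nonempty _, ?_⟩
        rintro m _ ⟨m', rfl⟩
        exact ⟨m * m', mul_assoc _ _ _⟩
      · rintro _ ⟨m', rfl⟩
        exact N_mul _ _ (N_mul _ _ hp)
    rw [← this] at hp
    exact hp
  refine zorn_superset _ fun c hcs hc => ?_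
  refine
    ⟨⋂₀ c, ⟨isClosed_sInter fun t ht => (hcs ht).1, ?_, fun m m' hm' => ?_⟩, fun s hs =>
      Set.sInter_subset_of_mem hs⟩
  · obtain rfl | hcnemp := c.eq_empty_or_nonempty
    · rw [Set.sInter_empty]
      apply Set.univ_nonempty
    convert!
      @IsCompact.nonempty_iInter_of_directed_nonempty_isCompact_isClosed _ _ _ hcnemp.coe_sort
        ((↑) : c → Set M) ?_ ?_ ?_ ?_
    · exact Set.sInter_eq_iInter
    · refine DirectedOn.directed_val (IsChain.directedOn hc.symm)
    exacts [fun i => (hcs i.prop).2.1, fun i => (hcs i.prop).1.isCompact, fun i => (hcs i.prop).1]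
  · rw [Set.mem_sInter]
    exact fun t ht => (hcs ht).2.2 m m' (Set.mem_sInter.mp hm' t ht)

theorem exists_corner_group {M : Type} [Nonempty M] [Semigroup M] [TopologicalSpace M]
    [CompactSpace M] [T2Space M] (hc : ∀ r : M, Continuous (· * r)) :
    ∃ (Γ : Type) (_ : Group Γ) (val : Γ → M) (x : M → Γ) (p : M),
      (∀ a b, val (a * b) = val a * val b) ∧ ∀ z, val (x z) = p * z * p := by
  obtain ⟨p, hpp, hw⟩ := exists_min_idem hc
  choose w hw using hw
  let Γ := {z : M // p * z = z ∧ z * p = z}
  let x : M → Γ := fun z => ⟨p * z * p, by rw [← mul_assoc, ← mul_assoc, hpp],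
    by rw [mul_assoc, hpp]⟩
  let _ : Mul Γ := ⟨fun a b => ⟨a.1 * b.1, by rw [← mul_assoc, a.2.1], by rw [mul_assoc, b.2.2]⟩⟩
  let _ : One Γ := ⟨⟨p, hpp, hpp⟩⟩
  let _ : Inv Γ := ⟨fun a => x (w a.1)⟩
  let inst : Group Γ := Group.ofLeftAxioms (fun a b c => Subtype.ext (mul_assoc a.1 b.1 c.1))
    (fun a => Subtype.ext a.2.1) (fun a => Subtype.ext (by
      change p * w a.1 * p * a.1 = p
      have := hw a.1
      rw [a.2.2] at this
      rw [mul_assoc, a.2.1, mul_assoc, this, hpp]))
  exact ⟨Γ, inst, Subtype.val, x, p, fun _ _ => rfl, fun _ => rfl⟩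

variable {G : Type} [Group G]

/-- Evaluate a variable word at a group element. -/
def evL (l : List (G ⊕ G)) (g : G) : FreeMonoid G :=
  FreeMonoid.ofList (l.map (Sum.elim id (· * g)))

/-- The number of variable letters. -/
def degL (l : List (G ⊕ G)) : ℕ := (l.map fun a => if a.isRight then 1 else 0).sum

theorem evL_append (l l' : List (G ⊕ G)) (g : G) : evL (l ++ l') g = evL l g * evL l' g := by
  simp [evL]

omit [Group G] in
theorem degL_append (l l' : List (G ⊕ G)) : degL (l ++ l') = degL l + degL l' := by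
  simp [degL]

theorem evL_const (w : FreeMonoid G) (g : G) : evL (w.toList.map Sum.inl) g = w := by
  simp [evL]

omit [Group G] in
theorem degL_const (w : List G) : degL (w.map Sum.inl) = 0 := by
  induction w with
  | nil => rfl
  | cons a w ih => simpa [degL] using ih

attribute [local instance] Ultrafilter.semigroup

theorem realise [Finite G] {Γ : Type} [Group Γ] (val : Γ → Ultrafilter (FreeMonoid G))
    (x : Ultrafilter (FreeMonoid G) → Γ) (p : Ultrafilter (FreeMonoid G))
    (hmul : ∀ a b, val (a * b) = val a * val b) (hx : ∀ z, val (x z) = p * z * p)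
    {u : G → Γ} {d : ℕ} (hu : RelP (fun g => x (pure (FreeMonoid.of g))) u d) :
    ∀ C : G → FreeMonoid G → Prop, (∀ g, ∀ᶠ w in val (u g), C g w) →
      ∃ l, degL l = d ∧ ∀ g, C g (evL l g) := by
  induction hu with
  | const c =>
    intro C hC
    obtain ⟨w, hw⟩ := (eventually_all.2 hC).exists
    exact ⟨w.toList.map Sum.inl, degL_const _, fun g => by rw [evL_const]; exact hw g⟩
  | pat h =>
    intro C hC
    simp only [hx] at hC
    have h1 : ∀ g, ∀ᶠ w in p, ∀ᶠ w' in p, C g (w * FreeMonoid.of (h * g) * w') := by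
      intro g
      have := hC g
      erw [Ultrafilter.eventually_mul, Ultrafilter.eventually_mul] at this
      simpa using this
    obtain ⟨w, hw⟩ := (eventually_all.2 h1).exists
    obtain ⟨w', hw'⟩ := (eventually_all.2 hw).exists
    refine ⟨w.toList.map Sum.inl ++ [Sum.inr h] ++ w'.toList.map Sum.inl, ?_, fun g => ?_⟩
    · rw [degL_append, degL_append, degL_const, degL_const]
      rfl
    · rw [evL_append, evL_append, evL_const, evL_const]
      exact hw' g
  | @mul u v d e _ _ ih1 ih2 =>
    intro C hC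
    have h1 : ∀ g, ∀ᶠ w in val (u g), ∀ᶠ w' in val (v g), C g (w * w') := by
      intro g
      have := hC g
      rw [Pi.mul_apply, hmul] at this
      exact this
    obtain ⟨l, hl, hl'⟩ := ih1 _ h1
    obtain ⟨m, hm, hm'⟩ := ih2 _ hl'
    exact ⟨l ++ m, by rw [degL_append, hl, hm], fun g => by rw [evL_append]; exact hm' g⟩

theorem RelP.lineProd {Γ : Type} [Group Γ] {x k : G → Γ} {e : ℕ} (hk : RelP x k e)
    (l : List (Option G)) :
    RelP x (fun g => (l.map fun o => k (o.getD g)).prod)
      ((l.map fun o => if o = none then 1 else 0).sum * e) := by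
  induction l with
  | nil => exact (RelP.one x).cast (by funext g; simp) (by simp)
  | cons o l ih =>
    cases o with
    | none => exact (hk.mul ih).cast (by funext g; simp) (by simp; ring)
    | some a => exact ((RelP.const (k a)).mul ih).cast (by funext g; simp) (by simp)

theorem words_version [Finite G] (κ : Type) [Finite κ] :
    ∃ L, 1 ≤ L ∧ ∀ c : FreeMonoid G → κ, ∃ l, degL l = L ∧ ∀ g g', c (evL l g) = c (evL l g') := by
  classical
  obtain ⟨Γ, _, val, x, p, hmul, hx⟩ := exists_corner_group
    (M := Ultrafilter (FreeMonoid G)) Ultrafilter.continuous_mul_left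
  obtain ⟨ι, _, hι⟩ := Combinatorics.Line.exists_mono_in_high_dimension G κ
  obtain ⟨L, k, hL, hk⟩ := all_degrees (fun g => x (pure (FreeMonoid.of g))) (Fintype.card ι)
  refine ⟨L, hL, fun c => ?_⟩
  have hχ : ∀ z : Ultrafilter (FreeMonoid G), ∃ a : κ, ∀ᶠ w in z, c w = a := by
    intro z
    have : ∀ᶠ w in z, ∃ a : κ, c w = a := Eventually.of_forall fun w => ⟨_, rfl⟩
    exact Ultrafilter.eventually_exists_iff.1 this
  choose χ hχ using hχ
  let s : List ι := Finset.univ.toList
  obtain ⟨ℓ, a, ha⟩ := hι fun w => χ (val (s.map fun j => k (w j)).prod)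
  let m : ℕ := ((s.map ℓ.idxFun).map fun o => if o = none then 1 else 0).sum
  have hm : m = ∑ j, if ℓ.idxFun j = none then 1 else 0 := by
    simp only [m, List.map_map, s]
    rw [Finset.sum_map_toList]
    rfl
  have hm1 : 1 ≤ m := by
    obtain ⟨j, hj⟩ := ℓ.proper
    rw [hm]
    refine le_trans ?_ (Finset.single_le_sum (f := fun j => if ℓ.idxFun j = none then 1 else 0)
      (fun _ _ => Nat.zero_le _) (Finset.mem_univ j))
    simp [hj]
  have hm2 : m ≤ Fintype.card ι := by
    rw [hm, ← Finset.card_filter]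
    exact Finset.card_le_univ _
  obtain ⟨e, he, hke⟩ := hk m hm1 hm2
  have h1 := hke.lineProd (s.map ℓ.idxFun)
  obtain ⟨l, hl, hl'⟩ := realise val x p hmul hx h1 (fun _ w => c w = a) (fun g => by
    have h2 := hχ (val (s.map fun j => k (ℓ g j)).prod)
    have h3 := ha g
    simp only at h3
    rw [h3] at h2
    rw [List.map_map]
    exact h2)
  exact ⟨l, hl.trans he, fun g g' => by rw [hl', hl']⟩

/-- Fixed-degree Hales–Jewett theorem for the regular action of a finite group. -/
theorem fixed_degree (G : Type) [Group G] [Finite G] (κ : Type) [Finite κ] :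
    ∃ n L : ℕ, 1 ≤ L ∧ ∀ c : (Fin n → G) → κ, ∃ ℓ : Fin n → G ⊕ G,
      (∑ i, if (ℓ i).isRight then 1 else 0) = L ∧
      ∀ g g', c (fun i => (ℓ i).elim id (· * g)) = c (fun i => (ℓ i).elim id (· * g')) := by
  obtain ⟨L, hL, h⟩ := words_version (G := G) κ
  by_contra hcon
  push Not at hcon
  choose c hc using fun n => hcon n L hL
  let C : FreeMonoid G → κ := fun w => c w.toList.length fun i => w.toList.getD i 1
  have hC : ∀ (n : ℕ) (f : Fin n → G), C (FreeMonoid.ofList (List.ofFn f)) = c n f := by
    intro n f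
    have : ∀ (w : List G), w.length = n →
        C (FreeMonoid.ofList w) = c n fun i => w.getD i 1 := by
      rintro w rfl
      rfl
    rw [this _ (List.length_ofFn)]
    congr 1
    funext i
    simp
  obtain ⟨l, hl, hl'⟩ := h C
  obtain ⟨g, g', hg⟩ := hc l.length l.get (by
    rw [← hl, degL]
    conv_rhs => rw [← List.ofFn_get l]
    rw [List.map_ofFn, List.sum_ofFn]
    rfl)
  apply hg
  have := hl' g g'
  rw [← List.ofFn_get l] at this
  simp only [evL, List.map_ofFn, hC] at this
  exact this

end Vale.Agent.P058
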